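import Vale.Agent.P254Z.Br.BPb
import Vale.Agent.P254Z.SF.B

/-! P254, equality case and passage to convex bodies: the interface (helper92).

`StmtGaugeF + StmtMargin + StmtPoiPL` give the strong isotropic constant conjecture with its
equality case, through the blocks `StmtApprox`, `StmtGeo`, `StmtOdeco`, `StmtRigid`, `StmtLin`,
`StmtNear`. -/

set_option linter.all false

open MeasureTheory Filter Set Matrix
open scoped Topology NNReal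

namespace Vale.Agent.P254Z.Eq

open Vale.Agent.P227.M Vale.Agent.P254 Vale.Agent.P254.S Vale.Agent.P254.S130 Vale.Agent.P254.SP620
open Vale.Agent.P254Z.Br

variable {n : ℕ}

/-- `Z = h⁻¹ (D²φ)` -/
noncomputable def Zf (φ : E n → ℝ) (z : E n) : Matrix (Fin n) (Fin n) ℝ := mf SF.F (hess φ z)

/-- `A_k = E ∂_k Z` -/
noncomputable def Am (φ : E n → ℝ) (k : Fin n) : Matrix (Fin n) (Fin n) ℝ :=
  of fun i j => ∫ z, dM (Zf φ) k z i j ∂(gQ n)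

/-- `Γ = ∑ A_k²` -/
noncomputable def Gam (φ : E n → ℝ) : Matrix (Fin n) (Fin n) ℝ := ∑ k, Am φ k * Am φ k

/-- `E |χ|²`, `χ_k = ∂_k Z - A_k` -/
noncomputable def chi2 (φ : E n → ℝ) : ℝ := ∫ z, ∑ k, fr (dM (Zf φ) k z - Am φ k) ∂(gQ n)

/-- the deficit `D = h - n - ½ log det Cov` -/
noncomputable def Dfc (V : E n → ℝ) : ℝ := entV V - n - 1 / 2 * Real.log (covV V).det

/-- gauge position: `E Z = 0` -/
def Gauge (φ : E n → ℝ) : Prop := ∀ i j, ∫ z, Zf φ z i j ∂(gQ n) = 0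

/-- the gauge theorem (helper94) -/
def StmtGaugeF : Prop := ∀ (n : ℕ) (V : E n → ℝ) (c C : ℝ), Reg V c C →
  ∃ (A : Matrix (Fin n) (Fin n) ℝ) (c' C' : ℝ), A.det ≠ 0 ∧ Reg (fun x => V (lin A x)) c' C' ∧
    ∃ (φ : E n → ℝ) (a b M κ : ℝ), BP φ (fun x => V (lin A x)) a b M κ ∧ Gauge φ

/-- the main inequality, with a margin -/
def StmtMargin : Prop := ∀ n : ℕ, ∃ c : ℝ, 0 < c ∧ ∀ (φ V : E n → ℝ) (c0 C0 a b M κ : ℝ),
  Reg V c0 C0 → BP φ V a b M κ → Gauge φ → c * (chi2 φ + min 1 (fr (Gam φ - 1))) ≤ Dfc V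

/-- Gaussian Poincare inequality (helper19) -/
def StmtPoiPL : Prop := ∀ (n : ℕ) (f : E n → ℝ), PL f →
  ∫ z, f z ^ 2 ∂(gQ n) - (∫ z, f z ∂(gQ n)) ^ 2 ≤ ∫ z, ∑ k, pd k f z ^ 2 ∂(gQ n)

/-- regular potentials which approximate the cone measure of a convex body -/
def StmtApprox : Prop := ∀ (n : ℕ) (K : Set (Fin n → ℝ)), IsConvexBody K →
  ∃ (V : ℕ → E (n + 1) → ℝ), (∀ k, ∃ c C, Reg (V k) c C) ∧
    Tendsto (fun k => Dfc (V k)) atTop (𝓝 (R304.DD (R304.coneDens K))) ∧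
    ∀ f : (Fin (n + 1) → ℝ) → ℝ, R304.PolyGrowth f →
      Tendsto (fun k => Ex (V k) fun x => f x.ofLp) atTop (𝓝 (R304.Ef (R304.coneDens K) f))

/-- the map `z ↦ G O (E0 ⟨o_i, z⟩)_i + b`, `o_i` the columns of `O` -/
noncomputable def T0 (G O : Matrix (Fin n) (Fin n) ℝ) (b : Fin n → ℝ) (z : E n) : Fin n → ℝ :=
  G *ᵥ (O *ᵥ fun i => SF.E0 (∑ l, O l i * z l)) + b

/-- if the cone measure is the image of the Gaussian under `T0`, then `K` is a simplex -/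
def StmtGeo : Prop := ∀ (n : ℕ) (K : Set (Fin n → ℝ)), IsConvexBody K →
  ∀ (G O : Matrix (Fin (n + 1)) (Fin (n + 1)) ℝ) (b : Fin (n + 1) → ℝ), Oᵀ * O = 1 →
  (∀ f : (Fin (n + 1) → ℝ) → ℝ, LipschitzWith 1 f → (∀ x, |f x| ≤ 1) →
    R304.Ef (R304.coneDens K) f = ∫ z, f (T0 G O b z) ∂(gQ (n + 1))) → IsSimplex K

/-- a fully symmetric commuting family with `∑ A_l² = 1` is orthogonally decomposable -/
def StmtOdeco : Prop := ∀ (n : ℕ) (A : Fin n → Matrix (Fin n) (Fin n) ℝ),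
  (∀ l i j, A l i j = A l j i) → (∀ l i j, A l i j = A i l j) → (∀ l m, A l * A m = A m * A l) →
  ∑ l, A l * A l = 1 →
  ∃ O : Matrix (Fin n) (Fin n) ℝ, Oᵀ * O = 1 ∧ ∀ l, A l = O * diagonal (fun i => O l i) * Oᵀ

/-- the first chaos field `L(z) = ∑ z_l A_l` -/
noncomputable def Lz (A : Fin n → Matrix (Fin n) (Fin n) ℝ) (z : E n) : Matrix (Fin n) (Fin n) ℝ :=
  ∑ l, z l • A l

/-- if `h (L z)` is weakly curl free, then `A` is fully symmetric and commuting -/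
def StmtRigid : Prop := ∀ (n : ℕ) (A : Fin n → Matrix (Fin n) (Fin n) ℝ),
  (∀ l i j, A l i j = A l j i) →
  (∀ g : E n → ℝ, PL g → ∀ i j a,
    ∫ z, mf SF.h (Lz A z) i a * (pd j g z - z j * g z) ∂(gQ n)
      = ∫ z, mf SF.h (Lz A z) j a * (pd i g z - z i * g z) ∂(gQ n)) →
  (∀ l i j, A l i j = A i l j) ∧ ∀ l m, A l * A m = A m * A l

/-- linear changes of the variable -/
def StmtLin : Prop := ∀ (n : ℕ) (V : E n → ℝ) (c C : ℝ) (A : Matrix (Fin n) (Fin n) ℝ),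
  Reg V c C → A.det ≠ 0 →
  Dfc (fun x => V (lin A x)) = Dfc V ∧
  ∀ f : E n → ℝ, Ex (fun x => V (lin A x)) (fun x => f (lin A x)) = Ex V f

/-- facts on one Brenier potential in gauge position -/
def StmtNear : Prop := ∀ (n : ℕ) (φ V : E n → ℝ) (a b M κ : ℝ), BP φ V a b M κ → Gauge φ →
  (∀ l i j, Am φ l i j = Am φ l j i) ∧
  (∫ z, fr (hess φ z - mf SF.h (Lz (Am φ) z)) ∂(gQ n) ≤ chi2 φ) ∧
  ∀ u : Fin n → ℝ, SF.h 0 ^ 2 * (u ⬝ᵥ u) ≤
    ∫ z, (∑ i, u i * pd i φ z) ^ 2 ∂(gQ n) - (∫ z, ∑ i, u i * pd i φ z ∂(gQ n)) ^ 2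

/-- the conclusion -/
def Q1 : Prop := ∀ (n : ℕ) (K S : Set (Fin n → ℝ)), 1 ≤ n → IsConvexBody K → IsSimplex S →
  isoConst K ≤ isoConst S ∧ (isoConst K = isoConst S ↔ IsSimplex K)

end Vale.Agent.P254Z.Eq
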