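import Vale.Agent.P254Z.Eq.Iface

/-! P254, equality case: regular potentials approximate the cone measure (`StmtApprox`). -/

set_option linter.all false

open MeasureTheory Filter Set Matrix
open scoped Topology NNReal

namespace Vale.Agent.P254Z.Eq

open Vale.Agent.P227.M Vale.Agent.P254 Vale.Agent.P254.S

variable {n : ℕ} {V : E n → ℝ} {w : (Fin n → ℝ) → ℝ}

/-- dictionary between potentials on `E n` and densities on `Fin n → ℝ` -/
theorem Ex_eq_Ef (h : ∀ x, Real.exp (-V x) = w x.ofLp) (f : (Fin n → ℝ) → ℝ) :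
    Ex V (fun x => f x.ofLp) = R304.Ef w f := by
  unfold Ex R304.Ef
  simp only [h]
  rw [S5.integral_ofLp (fun x => f x * w x), S5.integral_ofLp w]

theorem covV_eq_covF (h : ∀ x, Real.exp (-V x) = w x.ofLp) : covV V = R304.covF w := by
  ext i j
  unfold covV R304.covF
  rw [of_apply, ← Ex_eq_Ef h (fun x => x i * x j), ← Ex_eq_Ef h (fun x => x i),
    ← Ex_eq_Ef h (fun x => x j)]

theorem entV_eq_entF (h : ∀ x, Real.exp (-V x) = w x.ofLp) : entV V = R304.entF w := by
  unfold entV R304.entF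
  have h1 : Ex V V = Ex V (fun x => -Real.log (w x.ofLp)) := by
    congr 1
    funext x
    rw [← h, Real.log_exp, neg_neg]
  rw [h1, Ex_eq_Ef h (fun x => -Real.log (w x))]
  simp only [h]
  rw [S5.integral_ofLp w]
  unfold R304.Ef
  have e : ∫ x, -Real.log (w x) * w x = -∫ x, w x * Real.log (w x) := by
    rw [← integral_neg]
    congr 1
    funext x
    ring
  rw [e]
  ring

theorem Dfc_eq_DD (h : ∀ x, Real.exp (-V x) = w x.ofLp) : Dfc V = R304.DD w := by
  unfold Dfc R304.DD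
  rw [covV_eq_covF h, entV_eq_entF h]
  ring

/-- the density of a regular potential is `Good` -/
theorem good_of_reg {c C : ℝ} (hV : Reg V c C) :
    ∃ M, R304.Good (fun x : Fin n → ℝ => Real.exp (-V (WithLp.toLp 2 x))) M 1 := by
  obtain ⟨A, hA⟩ := hV.quad_lower
  have hc := hV.c_pos
  refine ⟨Real.exp (A + 1 / c), one_pos, ?_, fun x => (Real.exp_pos _).le, fun x => ?_,
    univ, isOpen_univ, univ_nonempty, fun x _ => Real.exp_pos _⟩
  · have : Continuous fun x : Fin n → ℝ => Real.exp (-V (WithLp.toLp 2 x)) :=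
      (hV.cont.comp (PiLp.continuous_toLp 2 _)).neg.rexp
    exact this.aestronglyMeasurable
  · rw [← Real.exp_add]
    refine Real.exp_le_exp.2 ?_
    have h1 := hA (WithLp.toLp 2 x)
    have h2 : ‖x‖ ≤ ‖(WithLp.toLp 2 x : E n)‖ := by
      rw [pi_norm_le_iff_of_nonneg (norm_nonneg _)]
      intro i
      exact PiLp.norm_apply_le (WithLp.toLp 2 x : E n) i
    set r := ‖(WithLp.toLp 2 x : E n)‖
    have h4 : 0 ≤ (c / 2 * r - 1) ^ 2 / c := by positivity
    have h5 : (c / 2 * r - 1) ^ 2 / c = c / 4 * r ^ 2 - r + 1 / c := by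
      field_simp
      ring
    linarith

theorem covV_posDef {c C : ℝ} (hV : Reg V c C) : (covV V).PosDef := by
  obtain ⟨M, hM⟩ := good_of_reg hV
  rw [covV_eq_covF (w := fun x : Fin n → ℝ => Real.exp (-V (WithLp.toLp 2 x))) fun x => rfl]
  exact hM.covF_posDef

theorem exp_neg_pot_nice {K : Set (Fin n → ℝ)} (hi : (interior K).Nonempty) {ε : ℝ} (hε : 0 < ε)
    (m : ℝ) (B : Matrix (Fin n) (Fin n) ℝ) (c : Fin n → ℝ) (x : E n) :
    Real.exp (-S5.pot K ε m B c x) = R304.tilt B c x.ofLp * R304.nice K ε m x.ofLp := by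
  have hw : ∀ x, 0 < Fr.wK K ε m x := fun x => by
    rw [← X.Top.nice_eq_wK]
    exact R304.nice_pos hi hε m x
  rw [S5.exp_neg_pot hw, X.Top.nice_eq_wK]
  rfl

open R304 in
theorem stmtApprox : StmtApprox := by
  intro n K hK
  obtain ⟨a, ha, hdec⟩ := cone_decay hK.2.1
  have hB : (0 : Matrix (Fin (n + 1)) (Fin (n + 1)) ℝ).PosSemidef := Matrix.PosSemidef.zero
  have hC := isClosed_cone hK.2.1
  have hi := cone_interior hK.2.2
  obtain ⟨L, s, M, hK1, hK2, hK3, hK4, hs, hs1, -, hdom⟩ :=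
    exists_dom hB hC (convex_cone hK.1) hi ha hdec
  have hgood := good_limDens hB hC hi ha hdec
  have hw : ∀ k x, Real.exp (-S5.pot (L k) (s k) (s k) (0 + (s k) • 1) (mc n) x)
      = (fun y => GG (n + 1) (s k) * dens 0 (mc n) (L k) (s k) (s k + s k) y) x.ofLp := by
    intro k x
    rw [exp_neg_pot_nice (hK3 k) (hs k)]
    simp only
    rw [dens_eq, mul_inv_cancel_left₀ (GG_pos (hs k)).ne']
  refine ⟨fun k => S5.pot (L k) (s k) (s k) (0 + (s k) • 1) (mc n), fun k => ?_, ?_, fun f hf => ?_⟩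
  · exact S5.N710.regPot _ _ (hK1 k) (hK2 k).convex (hK3 k) _ _ (hs k) (hs k) _
      (posDef_add_smul hB (hs k)).posSemidef _
  · rw [coneDens_eq]
    refine (hdom.tendsto_DD hgood.mass_pos.ne' hgood.det_pos.ne').congr fun k => ?_
    have hg := good_dens hB hC (hi.mono interior_subset) ha hdec (hK1 k).measurableSet (hK3 k)
      (hK4 k) (hs k) (hs1 k) (t := s k + s k) (by have := hs k; linarith)
    rw [Dfc_eq_DD (w := fun y => GG (n + 1) (s k) * dens 0 (mc n) (L k) (s k) (s k + s k) y)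
      (hw k), DD_smul (GG_pos (hs k)) hg.int1 ?_ hg.mass_pos.ne']
    exact ent_integrable a _ ha (by positivity) hg.meas hg.nn hg.le
  · rw [coneDens_eq]
    refine (hdom.tendsto_Ef hgood.mass_pos.ne' hf).congr fun k => ?_
    rw [Ex_eq_Ef (w := fun y => GG (n + 1) (s k) * dens 0 (mc n) (L k) (s k) (s k + s k) y)
      (hw k), Ef_smul (GG_pos (hs k)).ne']

end Vale.Agent.P254Z.Eq
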