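import Vale.Agent.P254Z.Eq.Iface

/-! P254, equality case: if the cone measure of `K` is the image of the Gaussian under a map `T0`,
then `K` is a simplex (`StmtGeo`). -/

set_option linter.all false

open MeasureTheory Filter Set Matrix Metric
open scoped Topology NNReal

namespace Vale.Agent.P254Z.Eq

open Vale.Agent.P227.M Vale.Agent.P254 Vale.Agent.P254.S Vale.Agent.P254.S130 Vale.Agent.P254Z.Br

variable {n : ℕ}

theorem E0_cont : Continuous SF.E0 :=
  continuous_iff_continuousAt.2 fun z => (SF.E0_hasDerivAt z).continuousAt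

theorem E0_tendsto_atTop : Tendsto SF.E0 atTop atTop := by
  have h1 : Tendsto (fun z => SF.J z / √(2 * Real.pi)) atTop (𝓝[>] 0) := by
    refine tendsto_nhdsWithin_iff.2 ⟨?_, Eventually.of_forall fun z => ?_⟩
    · simpa using SF.J_tendsto_atTop.div_const (√(2 * Real.pi))
    · exact div_pos (SF.J_pos z) SF.sqrt_two_pi_pos
  exact tendsto_neg_atBot_atTop.comp (Real.tendsto_log_nhdsGT_zero.comp h1)

theorem E0_surj {s : ℝ} (hs : 0 < s) : ∃ y, SF.E0 y = s := by
  obtain ⟨x, hx⟩ := (SF.E0_tendsto_atBot.eventually (ge_mem_nhds hs)).exists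
  obtain ⟨y, hy⟩ := (E0_tendsto_atTop.eventually (eventually_ge_atTop s)).exists
  exact intermediate_value_univ x y E0_cont ⟨hx, hy⟩

theorem vol_ac_gQ : (volume : Measure (E n)) ≪ gQ n :=
  withDensity_absolutelyContinuous' (ENNReal.measurable_ofReal.comp dens_cont.measurable).aemeasurable
    (ae_of_all _ fun z => (ENNReal.ofReal_pos.2 (dens_pos z)).ne')

theorem T0_cont (G O : Matrix (Fin n) (Fin n) ℝ) (b : Fin n → ℝ) : Continuous (T0 G O b) := by
  have := E0_cont
  unfold T0
  simp only [mulVec, dotProduct]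
  fun_prop

/-- the test function `min 1 (dist (x, R))` -/
noncomputable def td (R : Set (Fin n → ℝ)) (x : Fin n → ℝ) : ℝ := min 1 (infDist x R)

theorem td_lip (R : Set (Fin n → ℝ)) : LipschitzWith 1 (td R) :=
  (lipschitz_infDist_pt R).const_min 1

theorem td_nonneg (R : Set (Fin n → ℝ)) (x : Fin n → ℝ) : 0 ≤ td R x :=
  le_min zero_le_one infDist_nonneg

theorem td_abs (R : Set (Fin n → ℝ)) (x : Fin n → ℝ) : |td R x| ≤ 1 := by
  rw [abs_of_nonneg (td_nonneg R x)]
  exact min_le_left _ _

theorem td_of_mem {R : Set (Fin n → ℝ)} {x : Fin n → ℝ} (h : x ∈ R) : td R x = 0 := by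
  unfold td
  rw [infDist_zero_of_mem h, min_eq_right zero_le_one]

theorem mem_of_td {R : Set (Fin n → ℝ)} (hR : IsClosed R) (hne : R.Nonempty) {x : Fin n → ℝ}
    (h : td R x = 0) : x ∈ R := by
  rw [hR.mem_iff_infDist_zero hne]
  unfold td at h
  rcases min_cases 1 (infDist x R) with h1 | h1
  · rw [h1.1] at h
    exact absurd h one_ne_zero
  · rwa [h1.1] at h

section main

variable {K : Set (Fin n → ℝ)} {T : E (n + 1) → Fin (n + 1) → ℝ}

theorem zero_mem_cone (hK : IsConvexBody K) : (0 : Fin (n + 1) → ℝ) ∈ R304.cone K := by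
  obtain ⟨y, hy⟩ := hK.2.2
  refine ⟨le_rfl, y, interior_subset hy, ?_⟩
  rw [Pi.zero_apply, zero_smul]
  rfl

/-- the range of `T` lies in the cone -/
theorem range_sub (hK : IsConvexBody K) (hT : Continuous T)
    (H : ∀ f : (Fin (n + 1) → ℝ) → ℝ, LipschitzWith 1 f → (∀ x, |f x| ≤ 1) →
      R304.Ef (R304.coneDens K) f = ∫ z, f (T z) ∂(gQ (n + 1))) (z : E (n + 1)) :
    T z ∈ R304.cone K := by
  have h1 := H _ (td_lip (R304.cone K)) (td_abs _)
  have h2 : R304.Ef (R304.coneDens K) (td (R304.cone K)) = 0 := by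
    unfold R304.Ef
    have : (fun x => td (R304.cone K) x * R304.coneDens K x) = fun _ => 0 := by
      funext x
      by_cases hx : x ∈ R304.cone K
      · rw [td_of_mem hx, zero_mul]
      · rw [R304.coneDens, indicator_of_notMem hx, mul_zero]
    rw [this, integral_zero, zero_div]
  have hc : Continuous fun z => td (R304.cone K) (T z) := (td_lip _).continuous.comp hT
  have hi : Integrable (fun z => td (R304.cone K) (T z)) (gQ (n + 1)) :=
    (PG.of_bound hc.aestronglyMeasurable (ae_of_all _ fun z => td_abs _ _)).int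
  rw [h2, eq_comm, integral_eq_zero_iff_of_nonneg (fun z => td_nonneg _ _) hi] at h1
  have h3 : (fun z => td (R304.cone K) (T z)) = 0 :=
    (hc.ae_eq_iff_eq volume continuous_zero).1 (vol_ac_gQ.ae_eq h1)
  exact mem_of_td (R304.isClosed_cone hK.2.1) ⟨0, zero_mem_cone hK⟩ (congrFun h3 z)

/-- a closed set which contains the range of `T` contains the cone -/
theorem cone_sub (hK : IsConvexBody K)
    (H : ∀ f : (Fin (n + 1) → ℝ) → ℝ, LipschitzWith 1 f → (∀ x, |f x| ≤ 1) →
      R304.Ef (R304.coneDens K) f = ∫ z, f (T z) ∂(gQ (n + 1)))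
    {R : Set (Fin (n + 1) → ℝ)} (hR : IsClosed R) (hTR : ∀ z, T z ∈ R) : R304.cone K ⊆ R := by
  obtain ⟨M, a, hg⟩ := R304.good_coneDens hK
  have h1 := H _ (td_lip R) (td_abs _)
  simp only [td_of_mem (hTR _), integral_zero] at h1
  unfold R304.Ef at h1
  rw [div_eq_zero_iff, or_iff_left hg.mass_pos.ne',
    integral_eq_zero_iff_of_nonneg (fun x => mul_nonneg (td_nonneg _ _) (hg.nn x))
      (hg.int ⟨(td_lip R).continuous.aestronglyMeasurable, 1, 0, fun x => by
        simpa using td_abs R x⟩)] at h1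
  have h2 : EqOn (td R) 0 (interior (R304.cone K)) := by
    refine Measure.eqOn_open_of_ae_eq (μ := volume) ?_ isOpen_interior
      (td_lip R).continuous.continuousOn continuousOn_const
    filter_upwards [ae_restrict_of_ae h1, ae_restrict_mem isOpen_interior.measurableSet] with x hx hx'
    rw [R304.coneDens, indicator_of_mem (interior_subset hx')] at hx
    exact (mul_eq_zero.1 hx).resolve_right (Real.exp_pos _).ne'
  have h3 : interior (R304.cone K) ⊆ R := fun x hx => mem_of_td hR ⟨_, hTR 0⟩ (h2 hx)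
  calc R304.cone K ⊆ closure (R304.cone K) := subset_closure
    _ = closure (interior (R304.cone K)) :=
        ((R304.convex_cone hK.1).closure_interior_eq_closure_of_nonempty_interior
          (R304.cone_interior hK.2.2)).symm
    _ ⊆ R := closure_minimal h3 hR

/-- a convex body whose cone is a translated simplicial cone is a simplex -/
theorem simplex_of_cone (hK : IsConvexBody K) {W : Matrix (Fin (n + 1)) (Fin (n + 1)) ℝ}
    (hW : W.det ≠ 0) {b : Fin (n + 1) → ℝ}
    (h1 : ∀ s : Fin (n + 1) → ℝ, (∀ i, 0 ≤ s i) → W *ᵥ s + b ∈ R304.cone K)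
    (h2 : ∀ x ∈ R304.cone K, ∀ i, 0 ≤ (W⁻¹ *ᵥ (x - b)) i) : IsSimplex K := by
  have hU : IsUnit W.det := isUnit_iff_ne_zero.2 hW
  have hinv : ∀ x, W *ᵥ (W⁻¹ *ᵥ x) = x := fun x => by
    rw [mulVec_mulVec, mul_nonsing_inv _ hU, one_mulVec]
  have hinj : ∀ s, W *ᵥ s = 0 → s = 0 := fun s hs => eq_zero_of_mulVec_eq_zero hW hs
  have hb : b = 0 := by
    have a1 := h2 0 (zero_mem_cone hK)
    have a2 : b ∈ R304.cone K := by simpa using h1 0 fun _ => le_rfl
    obtain ⟨a3, y, hy, a4⟩ := a2
    have a5 : b + b ∈ R304.cone K := by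
      refine ⟨add_nonneg a3 a3, y, hy, ?_⟩
      rw [Pi.add_apply, add_smul, ← a4]
      rfl
    have a6 := h2 _ a5
    rw [add_sub_cancel_right] at a6
    rw [zero_sub, mulVec_neg] at a1
    have a7 : W⁻¹ *ᵥ b = 0 := funext fun i => le_antisymm (neg_nonneg.1 (a1 i)) (a6 i)
    rw [← hinv b, a7, mulVec_zero]
  subst hb
  simp only [add_zero, sub_zero] at h1 h2
  have hcol : ∀ i, ∃ y ∈ K, 0 < W 0 i ∧ ∀ j : Fin n, W j.succ i = W 0 i * y j := by
    intro i
    obtain ⟨a1, y, hy, a2⟩ := h1 (Pi.single i 1) fun j => by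
      by_cases h : j = i
      · subst h; simp
      · simp [h]
    rw [mulVec_single_one] at a1 a2
    have a3 : ∀ j : Fin n, W j.succ i = W 0 i * y j := fun j => congrFun a2 j
    refine ⟨y, hy, lt_of_le_of_ne a1 fun h0 => ?_, a3⟩
    have a4 : W *ᵥ Pi.single i 1 = 0 := by
      rw [mulVec_single_one]
      funext j
      refine Fin.cases ?_ (fun j => ?_) j
      · exact h0.symm
      · show W j.succ i = 0
        rw [a3, ← h0, zero_mul]
    simpa using congrFun (hinj _ a4) i
  choose v hv hpos htail using hcol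
  refine ⟨v, ?_, subset_antisymm (fun y hy => ?_)
    (convexHull_min (range_subset_iff.2 hv) hK.1)⟩
  · rw [affineIndependent_iff]
    intro s t ht0 ht1 e he
    have a1 : W *ᵥ (fun i => if i ∈ s then t i / W 0 i else 0) = 0 := by
      funext j
      simp only [mulVec, dotProduct, mul_ite, mul_zero, Finset.sum_ite_mem, Finset.univ_inter,
        Pi.zero_apply]
      refine Fin.cases ?_ (fun j => ?_) j
      · rw [← ht0]
        exact Finset.sum_congr rfl fun i _ => by field_simp [(hpos i).ne']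
      · have := congrFun ht1 j
        rw [Finset.sum_apply, Pi.zero_apply] at this
        rw [← this]
        refine Finset.sum_congr rfl fun i _ => ?_
        rw [htail, Pi.smul_apply, smul_eq_mul]
        field_simp [(hpos i).ne']
    have a2 := congrFun (hinj _ a1) e
    simpa [he, (hpos e).ne'] using a2
  · have a1 : (Fin.cons 1 y : Fin (n + 1) → ℝ) ∈ R304.cone K :=
      ⟨zero_le_one, y, hy, by simp⟩
    have a2 := h2 _ a1
    have a3 := hinv (Fin.cons 1 y)
    set s := W⁻¹ *ᵥ (Fin.cons 1 y : Fin (n + 1) → ℝ)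
    have a4 : ∑ i, W 0 i * s i = 1 := congrFun a3 0
    have a5 : ∑ i, (W 0 i * s i) • v i = y := by
      funext j
      have : ∑ i, W j.succ i * s i = y j := congrFun a3 j.succ
      rw [← this, Finset.sum_apply]
      refine Finset.sum_congr rfl fun i _ => ?_
      rw [htail, Pi.smul_apply, smul_eq_mul]
      ring
    rw [← a5]
    exact (convex_convexHull ℝ _).sum_mem (fun i _ => mul_nonneg (hpos i).le (a2 i)) a4
      fun i _ => subset_convexHull ℝ _ (mem_range_self i)

end main

theorem stmtGeo : StmtGeo := by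
  intro n K hK G O b hO H
  have hT : ∀ z, T0 G O b z = (G * O) *ᵥ (fun i => SF.E0 (∑ l, O l i * z l)) + b := fun z => by
    rw [T0, mulVec_mulVec]
  set W := G * O
  have hW : W.det ≠ 0 := by
    intro h0
    obtain ⟨u, hu, hu0⟩ := exists_vecMul_eq_zero_iff.2 h0
    have hR : IsClosed {x : Fin (n + 1) → ℝ | u ⬝ᵥ x = u ⬝ᵥ b} :=
      isClosed_eq (by fun_prop) continuous_const
    have h1 := cone_sub hK H hR fun z => by
      show u ⬝ᵥ _ = _
      rw [hT, dotProduct_add, dotProduct_mulVec, hu0, zero_dotProduct, zero_add]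
    obtain ⟨x, hx⟩ := R304.cone_interior hK.2.2
    have h2 : Tendsto (fun t : ℝ => x + t • u) (𝓝[>] 0) (𝓝 x) := by
      have : Continuous fun t : ℝ => x + t • u := by fun_prop
      simpa using (this.tendsto 0).mono_left nhdsWithin_le_nhds
    obtain ⟨t, ht, ht0⟩ := ((h2.eventually (isOpen_interior.mem_nhds hx)).and
      self_mem_nhdsWithin).exists
    have h3 : u ⬝ᵥ (x + t • u) = u ⬝ᵥ b := h1 (interior_subset ht)
    have h4 : u ⬝ᵥ x = u ⬝ᵥ b := h1 (interior_subset hx)
    rw [dotProduct_add, h4, dotProduct_smul, smul_eq_mul, add_eq_left, mul_eq_zero,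
      dotProduct_self_eq_zero] at h3
    exact h3.elim (ne_of_gt ht0) hu
  have hU : IsUnit W.det := isUnit_iff_ne_zero.2 hW
  refine simplex_of_cone hK hW (b := b) (fun s hs => ?_) fun x hx => ?_
  · have h1 : ∀ s : Fin (n + 1) → ℝ, (∀ i, 0 < s i) → W *ᵥ s + b ∈ R304.cone K := by
      intro s hs
      choose y hy using fun i => E0_surj (hs i)
      have h2 := range_sub hK (T0_cont G O b) H (WithLp.toLp 2 (O *ᵥ y))
      have h3 : Oᵀ *ᵥ (O *ᵥ y) = y := by rw [mulVec_mulVec, hO, one_mulVec]
      rw [hT] at h2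
      convert h2 using 3
      funext i
      rw [← hy i, ← congrFun h3 i]
      rfl
    have h2 : Tendsto (fun t : ℝ => W *ᵥ (fun i => s i + t) + b) (𝓝[>] 0) (𝓝 (W *ᵥ s + b)) := by
      have : Continuous fun t : ℝ => W *ᵥ (fun i => s i + t) + b := by
        fun_prop
      simpa using (this.tendsto 0).mono_left nhdsWithin_le_nhds
    refine (R304.isClosed_cone hK.2.1).mem_of_tendsto h2 ?_
    filter_upwards [self_mem_nhdsWithin] with t ht
    exact h1 _ fun i => add_pos_of_nonneg_of_pos (hs i) ht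
  · have hR : IsClosed {x : Fin (n + 1) → ℝ | ∀ i, 0 ≤ (W⁻¹ *ᵥ (x - b)) i} := by
      rw [setOf_forall]
      refine isClosed_iInter fun i => isClosed_le continuous_const ?_
      simp only [mulVec, dotProduct]
      fun_prop
    refine cone_sub hK H hR (fun z i => ?_) hx
    rw [hT, add_sub_cancel_right, mulVec_mulVec, nonsing_inv_mul _ hU, one_mulVec]
    exact (SF.E0_pos _).le

end Vale.Agent.P254Z.Eq
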