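import Vale.Agent.P254Z.Eq.Approx

/-! P254, equality case: linear changes of the variable (`StmtLin`). -/

set_option linter.all false

open MeasureTheory Filter Set Matrix
open scoped Topology NNReal

namespace Vale.Agent.P254Z.Eq

open Vale.Agent.P227.M Vale.Agent.P254 Vale.Agent.P254.S

variable {n : ℕ} {V : E n → ℝ} {A : Matrix (Fin n) (Fin n) ℝ}

theorem integral_lin (hA : A.det ≠ 0) (f : E n → ℝ) :
    ∫ y, f (lin A y) = |A.det|⁻¹ * ∫ x, f x := by
  have hU : IsUnit A := (Matrix.isUnit_iff_isUnit_det _).2 (isUnit_iff_ne_zero.2 hA)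
  have h1 := S5.integral_aff hU 0 (fun x => f (WithLp.toLp 2 x))
  rw [← S5.integral_ofLp (fun x => f (WithLp.toLp 2 x))] at h1
  simpa [S5.aff, lin] using h1

theorem Ex_lin (hA : A.det ≠ 0) (V f : E n → ℝ) :
    Ex (fun x => V (lin A x)) (fun x => f (lin A x)) = Ex V f := by
  unfold Ex
  rw [integral_lin hA (fun x => f x * Real.exp (-V x)), integral_lin hA (fun x => Real.exp (-V x)),
    mul_div_mul_left _ _ (inv_ne_zero (abs_ne_zero.2 hA))]

theorem Ex_sum {c C : ℝ} (hV : Reg V c C) {ι : Type*} [Fintype ι] (t : ι → ℝ) {f : ι → E n → ℝ}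
    (hf : ∀ i, Gr (f i)) : Ex V (fun x => ∑ i, t i * f i x) = ∑ i, t i * Ex V (f i) := by
  unfold Ex
  simp only [Finset.sum_mul, mul_assoc]
  rw [integral_finsetSum _ fun i _ => (hV.integrable_gr (hf i)).const_mul (t i), Finset.sum_div]
  refine Finset.sum_congr rfl fun i _ => ?_
  rw [integral_const_mul, mul_div_assoc]

theorem coord_lin (hA : A.det ≠ 0) (x : E n) (i : Fin n) : x i = ∑ k, A⁻¹ i k * lin A x k := by
  have h : A⁻¹ *ᵥ (A *ᵥ x.ofLp) = x.ofLp := by
    rw [Matrix.mulVec_mulVec, Matrix.nonsing_inv_mul _ (isUnit_iff_ne_zero.2 hA), Matrix.one_mulVec]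
  exact (congrFun h i).symm

theorem covV_lin {c C : ℝ} (hV : Reg V c C) (hA : A.det ≠ 0) :
    covV (fun x => V (lin A x)) = A⁻¹ * covV V * (A⁻¹)ᵀ := by
  have h1 : ∀ i, Ex (fun x => V (lin A x)) (fun x => x i) = ∑ k, A⁻¹ i k * Ex V (fun x => x k) := by
    intro i
    rw [← Ex_sum hV _ fun k => Gr.coord k, ← Ex_lin hA V]
    congr 1
    funext x
    exact coord_lin hA x i
  have h2 : ∀ i j, Ex (fun x => V (lin A x)) (fun x => x i * x j)
      = ∑ p : Fin n × Fin n, (A⁻¹ i p.1 * A⁻¹ j p.2) * Ex V (fun x => x p.1 * x p.2) := by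
    intro i j
    rw [← Ex_sum hV _ fun p : Fin n × Fin n => (Gr.coord p.1).mul (Gr.coord p.2), ← Ex_lin hA V]
    congr 1
    funext x
    rw [coord_lin hA x i, coord_lin hA x j, Finset.sum_mul_sum, Fintype.sum_prod_type]
    exact Finset.sum_congr rfl fun k _ => Finset.sum_congr rfl fun l _ => by ring
  ext i j
  simp only [covV, Matrix.mul_apply, transpose_apply]
  rw [h1, h1, h2, Finset.sum_mul_sum, Fintype.sum_prod_type, ← Finset.sum_sub_distrib]
  simp only [Finset.sum_mul, ← Finset.sum_sub_distrib]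
  rw [Finset.sum_comm]
  exact Finset.sum_congr rfl fun k _ => Finset.sum_congr rfl fun l _ => by ring

theorem entV_lin {c C : ℝ} (hV : Reg V c C) (hA : A.det ≠ 0) :
    entV (fun x => V (lin A x)) = entV V - Real.log |A.det| := by
  unfold entV
  rw [Ex_lin hA V V, integral_lin hA (fun x => Real.exp (-V x)),
    Real.log_mul (inv_ne_zero (abs_ne_zero.2 hA)) hV.Z_pos.ne', Real.log_inv]
  ring

theorem stmtLin : StmtLin := by
  intro n V c C A hV hA
  refine ⟨?_, Ex_lin hA V⟩
  unfold Dfc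
  have hd := (covV_posDef hV).det_pos
  rw [entV_lin hV hA, covV_lin hV hA, det_mul, det_mul, det_transpose, det_nonsing_inv,
    Ring.inverse_eq_inv', Real.log_mul (mul_ne_zero (inv_ne_zero hA) hd.ne') (inv_ne_zero hA),
    Real.log_mul (inv_ne_zero hA) hd.ne', Real.log_inv, Real.log_abs]
  ring

end Vale.Agent.P254Z.Eq
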