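import Vale.Agent.P254Z.Eq.Limit
import Vale.Agent.P254Z.Eq.Lin
import Vale.Agent.P254Z.Eq.Geo
import Vale.Agent.P254Z.Br.GaC
import Vale.Agent.P254Z.Br.Poin

/-! P254: from the margin inequality to the strong isotropic constant conjecture with equality case. -/

set_option linter.all false

open MeasureTheory Filter Set Matrix
open scoped Topology NNReal

namespace Vale.Agent.P254Z.Eq

open Vale.Agent.P227.M Vale.Agent.P254 Vale.Agent.P254.S Vale.Agent.P254.S130 Vale.Agent.P254.SP620
open Vale.Agent.P254Z.Br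

variable {n : ℕ}

theorem stmtPoiPL : StmtPoiPL := fun _ _ hf => poincare' hf

theorem chi2_nonneg (φ : E n → ℝ) : 0 ≤ chi2 φ :=
  integral_nonneg fun z => Finset.sum_nonneg fun k _ => fr_nonneg _

theorem Dfc_nonneg (hM : StmtMargin) {V : E n → ℝ} {c C : ℝ} (hV : Reg V c C) : 0 ≤ Dfc V := by
  obtain ⟨A, c', C', hA, hR, φ, a, b, M, κ, h, hg⟩ := stmtGaugeF n V c C hV
  obtain ⟨c0, hc0, H⟩ := hM n
  rw [← (stmtLin n V c C A hV hA).1]
  exact (mul_nonneg hc0.le (add_nonneg (chi2_nonneg φ) (le_min zero_le_one (fr_nonneg _)))).trans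
    (H φ _ c' C' a b M κ hR h hg)

theorem simplex_of_DD (hM : StmtMargin) {K : Set (Fin n → ℝ)} (hK : IsConvexBody K)
    (h0 : R304.DD (R304.coneDens K) = 0) : IsSimplex K := by
  obtain ⟨V, hV, hD, hE⟩ := stmtApprox n K hK
  choose c C hV using hV
  choose G c' C' hG hR φ a b M κ h hg using fun k => stmtGaugeF (n + 1) (V k) (c k) (C k) (hV k)
  obtain ⟨c0, hc0, H⟩ := hM (n + 1)
  rw [h0] at hD
  have hm : Tendsto (fun k => chi2 (φ k) + min 1 (fr (Gam (φ k) - 1))) atTop (𝓝 0) := by
    have t := hD.div_const c0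
    rw [zero_div] at t
    refine squeeze_zero (fun k => add_nonneg (chi2_nonneg _) (le_min zero_le_one (fr_nonneg _)))
      (fun k => ?_) t
    rw [le_div_iff₀' hc0, ← (stmtLin _ _ _ _ _ (hV k) (hG k)).1]
    exact H _ _ _ _ _ _ _ _ (hR k) (h k) (hg k)
  have hc : Tendsto (fun k => chi2 (φ k)) atTop (𝓝 0) :=
    squeeze_zero (fun k => chi2_nonneg _)
      (fun k => le_add_of_nonneg_right (le_min zero_le_one (fr_nonneg _))) hm
  have hΓ : Tendsto (fun k => fr (Gam (φ k) - 1)) atTop (𝓝 0) := by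
    have t : Tendsto (fun k => min 1 (fr (Gam (φ k) - 1))) atTop (𝓝 0) :=
      squeeze_zero (fun k => le_min zero_le_one (fr_nonneg _))
        (fun k => le_add_of_nonneg_left (chi2_nonneg _)) hm
    refine t.congr' ?_
    filter_upwards [t.eventually (gt_mem_nhds zero_lt_one)] with k hk
    exact min_eq_right (not_lt.1 fun h1 => by rw [min_eq_left h1.le] at hk; exact lt_irrefl _ hk)
  have hy : ∀ k (f : (Fin (n + 1) → ℝ) → ℝ), Ex (V k) (fun x => f x.ofLp)
      = ∫ z, f (fun i => ∑ p, G k i p * pd p (φ k) z) ∂(gQ (n + 1)) := fun k f => by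
    rw [← (stmtLin _ _ _ _ _ (hV k) (hG k)).2, bp_push (h k)]
    congr 1
    funext z
    congr 1
    funext i
    simp only [lin, mulVec, dotProduct, grad_coord]
  have h2 : 0 < SF.h 0 ^ 2 := pow_pos (SF.h_pos 0) 2
  obtain ⟨x0, s, hs, hx⟩ := subseq_of_sq
    (ι := (Fin (n + 1) × Fin (n + 1) × Fin (n + 1)) ⊕ (Fin (n + 1) × Fin (n + 1)))
    (fun q k => Sum.elim (fun q => Am (φ k) q.1 q.2.1 q.2.2) (fun q => G k q.1 q.2) q)
    (fun q k => Sum.elim (fun q => 2 + fr (Gam (φ k) - 1))
      (fun q => (Ex (V k) (fun x => x.ofLp q.1 * x.ofLp q.1) - Ex (V k) (fun x => x.ofLp q.1) ^ 2)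
        / SF.h 0 ^ 2) q)
    (fun q => by
      rcases q with q | q
      · exact ⟨_, hΓ.const_add 2⟩
      · exact ⟨_, ((hE _ (R304.pg_coord2 q.1 q.1)).sub ((hE _ (R304.pg_coord q.1)).pow 2)).div_const _⟩)
    (fun q k => by
      rcases q with ⟨l, i, j⟩ | ⟨i, j⟩
      · have h1 := sq_le_fr (Gam (φ k) - 1) i i
        have h3 : Am (φ k) l i j ^ 2 ≤ Gam (φ k) i i := by
          simp only [Gam, Matrix.sum_apply, Matrix.mul_apply]
          have e : ∀ l j, Am (φ k) l i j * Am (φ k) l j i = Am (φ k) l i j ^ 2 := fun l j => by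
            rw [Am_symm (h k) l j i, sq]
          simp only [e]
          exact (Finset.single_le_sum (f := fun j => Am (φ k) l i j ^ 2) (fun _ _ => sq_nonneg _)
            (Finset.mem_univ j)).trans (Finset.single_le_sum (f := fun l => ∑ j, Am (φ k) l i j ^ 2)
            (fun _ _ => Finset.sum_nonneg fun _ _ => sq_nonneg _) (Finset.mem_univ l))
        rw [Matrix.sub_apply, one_apply_eq] at h1
        simp only [Sum.elim_inl]
        nlinarith [sq_nonneg (Gam (φ k) i i - 1 - 1)]
      · have h1 := var_low (h k) (hg k) (G k i)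
        simp only [Sum.elim_inr]
        rw [le_div_iff₀' h2, hy k fun x => x i * x i, hy k fun x => x i]
        simp only [← sq]
        refine le_trans (mul_le_mul_of_nonneg_left ?_ h2.le) h1
        rw [sq]
        exact Finset.single_le_sum (f := fun j => G k i j * G k i j) (fun _ _ => mul_self_nonneg _)
          (Finset.mem_univ j))
  have hs' := hs.tendsto_atTop
  obtain ⟨O, hO, hT⟩ := lim_T (A := fun l => of fun i j => x0 (Sum.inl (l, i, j))) stmtPoiPL
    (fun k => h (s k)) (fun k => hg (s k)) (fun l i j => hx (Sum.inl (l, i, j))) (hc.comp hs')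
    (hΓ.comp hs')
  set G0 : Matrix (Fin (n + 1)) (Fin (n + 1)) ℝ := of fun i j => x0 (Sum.inr (i, j)) with hG0
  have hGl : ∀ i j, Tendsto (fun k => G (s k) i j) atTop (𝓝 (G0 i j)) := fun i j => hx (Sum.inr (i, j))
  set β : Fin (n + 1) → ℝ := fun i => R304.Ef (R304.coneDens K) (fun x => x i)
    - ∑ p, G0 i p * ∫ z, tt O p z ∂(gQ (n + 1)) with hβ
  have eT : ∀ z i, T0 G0 O β z i = ∑ p, G0 i p * tt O p z + β i := fun z i => rfl
  refine stmtGeo n K hK G0 O β hO fun f hf hb => ?_
  have pf : R304.PolyGrowth f := ⟨hf.continuous.aestronglyMeasurable, 1, 0, fun x => by simpa using hb x⟩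
  refine tendsto_nhds_unique ((hE f pf).comp hs') ?_
  simp only [Function.comp_def, hy]
  refine Z0.lip hf hb (fun k i => PG.sum _ fun p _ => (bp_pl_T (h _) p).g.const_mul _)
    (fun i => by
      simp only [eT]
      exact (PG.sum _ fun p _ => (pl_tt O p).g.const_mul _).add (PG.const _)) fun i => ?_
  have z1 := Z0.sum Finset.univ fun p => (hT p).smul (hGl i p)
  have z2 := Z0.sum Finset.univ fun p =>
    Z0.of_coef (tendsto_sub_nhds_zero_iff.2 (hGl i p)) (pl_tt O p).g
  have t3 : Tendsto (fun k => ∑ p, G (s k) i p * ∫ y, pd p (φ (s k)) y - tt O p y ∂(gQ (n + 1)))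
      atTop (𝓝 (β i)) := by
    refine (((hE _ (R304.pg_coord i)).comp hs').sub (tendsto_finsetSum Finset.univ fun p _ =>
      (hGl i p).mul_const (∫ z, tt O p z ∂(gQ (n + 1))))).congr fun k => ?_
    simp only [Function.comp_def]
    rw [hy (s k) fun x => x i,
      integral_finsetSum _ fun p _ => ((bp_pl_T (h _) p).g.const_mul _).int, ← Finset.sum_sub_distrib]
    refine Finset.sum_congr rfl fun p _ => ?_
    rw [integral_const_mul, integral_sub (bp_pl_T (h _) p).g.int (pl_tt O p).g.int, mul_sub]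
  have z3 := Z0.of_coef (tendsto_sub_nhds_zero_iff.2 t3) (PG.const (n := n + 1) 1)
  refine ((z1.add z2).add z3).congr fun k z => ?_
  simp only [eT, mul_sub, sub_mul, Finset.sum_sub_distrib]
  ring

theorem q1_of (hM : StmtMargin) : Q1 := by
  intro n K S hn hK hS
  obtain ⟨a, ha, hdec⟩ := R304.cone_decay hK.2.1
  have hg : R304.Good (R304.coneDens K) (Real.exp 0) a := by
    rw [R304.coneDens_eq]
    exact R304.good_limDens Matrix.PosSemidef.zero (R304.isClosed_cone hK.2.1)
      (R304.cone_interior hK.2.2) ha hdec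
  have e1 : K468.covF (K468.coneF K) = R304.covF (R304.coneDens K) := by
    rw [R304.covF_congr R304.coneF_ae, hg.covF_eq]
  have e2 : K468.entF (K468.coneF K) = R304.entF (R304.coneDens K) := by
    rw [R304.entF_congr R304.coneF_ae, hg.entF_eq (Real.exp_pos _).le]
  refine ⟨K468.isoConst_le_of_cone hn hK hS ?_, fun he => simplex_of_DD hM hK ?_,
    fun h => by rw [isoConst_simplex h, isoConst_simplex hS]⟩
  · obtain ⟨V, hV, hD, -⟩ := stmtApprox n K hK
    have h1 := ge_of_tendsto' hD fun k => by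
      obtain ⟨c, C, h⟩ := hV k
      exact Dfc_nonneg hM h
    unfold K468.DNonneg
    rw [e1, e2]
    unfold R304.DD at h1
    linarith
  · have h1 := (K468.D_eq_of_isoConst_eq hn hK hS he).2
    rw [e1, e2] at h1
    unfold R304.DD
    linarith

end Vale.Agent.P254Z.Eq
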