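import Mathlib

/-! P254, equality case: simultaneous diagonalisation and orthogonally decomposable tensors. -/

set_option linter.all false

open Matrix Module Module.End

namespace Vale.Agent.P254Z.Eq

theorem joint_basis {n : ℕ} (T : Fin n → EuclideanSpace ℝ (Fin n) →ₗ[ℝ] EuclideanSpace ℝ (Fin n))
    (hT : ∀ l, (T l).IsSymmetric) (hC : Pairwise (Function.onFun Commute T)) :
    ∃ w : Fin n → EuclideanSpace ℝ (Fin n), Orthonormal ℝ w ∧ ∃ lam : Fin n → Fin n → ℝ,
      ∀ l a, T l (w a) = lam l a • w a := by
  classical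
  have hI := LinearMap.IsSymmetric.directSum_isInternal_of_pairwise_commute hT hC
  have hO := LinearMap.IsSymmetric.orthogonalFamily_iInf_eigenspaces hT
  let v := fun α : Fin n → ℝ =>
    (stdOrthonormalBasis ℝ (⨅ j, eigenspace (T j) (α j) : Submodule ℝ _)).toBasis
  have hv : ∀ α, Orthonormal ℝ (v α) := fun α => by
    simpa [v] using (stdOrthonormalBasis ℝ (⨅ j, eigenspace (T j) (α j) : Submodule ℝ _)).orthonormal
  have hB := hI.collectedBasis_orthonormal hO hv
  have hm := hI.collectedBasis_mem v
  generalize hI.collectedBasis v = B at hB hm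
  haveI := Module.Finite.finite_basis B
  haveI := Fintype.ofFinite
    (Σ α : Fin n → ℝ, Fin (finrank ℝ (⨅ j, eigenspace (T j) (α j) : Submodule ℝ _)))
  have hcard := Module.finrank_eq_card_basis B
  rw [finrank_euclideanSpace_fin] at hcard
  let e := (Fintype.equivFinOfCardEq hcard.symm).symm
  refine ⟨fun a => B (e a), hB.comp e e.injective, fun l a => (e a).1 l, fun l a => ?_⟩
  have h1 := hm (e a)
  rw [Submodule.mem_iInf] at h1
  exact mem_eigenspace_iff.1 (h1 l)

/-- commuting symmetric matrices have a common orthonormal basis of eigenvectors -/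
theorem joint_diag {n : ℕ} (A : Fin n → Matrix (Fin n) (Fin n) ℝ) (hs : ∀ l i j, A l i j = A l j i)
    (hc : ∀ l m, A l * A m = A m * A l) :
    ∃ U : Matrix (Fin n) (Fin n) ℝ, Uᵀ * U = 1 ∧ ∃ lam : Fin n → Fin n → ℝ,
      ∀ l a i, ∑ j, A l i j * U j a = lam l a * U i a := by
  let T : Fin n → EuclideanSpace ℝ (Fin n) →ₗ[ℝ] EuclideanSpace ℝ (Fin n) :=
    fun l => Matrix.toEuclideanLin (A l)
  have hT : ∀ l, (T l).IsSymmetric := fun l => by
    apply Matrix.isHermitian_iff_isSymmetric.1
    ext i j
    simp [hs l i j]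
  have hC : Pairwise (Function.onFun Commute T) := fun l m _ => by
    change T l * T m = T m * T l
    ext1 x
    simp only [T, Module.End.mul_apply, Matrix.toLpLin_apply, mulVec_mulVec, hc l m]
  obtain ⟨w, hw, lam, hl⟩ := joint_basis T hT hC
  refine ⟨of fun i a => w a i, ?_, lam, fun l a i => ?_⟩
  · ext a b
    have h1 := orthonormal_iff_ite.1 hw a b
    rw [Matrix.mul_apply, Matrix.one_apply]
    simp only [transpose_apply, of_apply]
    rw [PiLp.inner_apply] at h1
    rw [← h1]
    refine Finset.sum_congr rfl fun i _ => ?_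
    simp [mul_comm]
  · have h3 := congrArg (fun x : EuclideanSpace ℝ (Fin n) => x i) (hl l a)
    simpa [T, Matrix.toLpLin_apply, mulVec, dotProduct] using h3

/-- a fully symmetric commuting family with `∑ A_l² = 1` is orthogonally decomposable -/
theorem odeco {n : ℕ} (A : Fin n → Matrix (Fin n) (Fin n) ℝ) (hs : ∀ l i j, A l i j = A l j i)
    (hf : ∀ l i j, A l i j = A i l j) (hc : ∀ l m, A l * A m = A m * A l)
    (h1 : ∑ l, A l * A l = 1) :
    ∃ O : Matrix (Fin n) (Fin n) ℝ, Oᵀ * O = 1 ∧ ∀ l, A l = O * diagonal (fun i => O l i) * Oᵀ := by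
  obtain ⟨U, hU, lam, hl⟩ := joint_diag A hs hc
  have hU' : U * Uᵀ = 1 := mul_eq_one_comm.1 hU
  have hAU : ∀ l, A l * U = U * diagonal (lam l) := fun l => by
    ext i a
    rw [Matrix.mul_apply, mul_diagonal, hl, mul_comm]
  have hn : ∀ a, ∑ i, U i a * U i a = 1 := fun a => by
    have := congrFun (congrFun hU a) a
    simpa [Matrix.mul_apply] using this
  -- lam l a = c a * U l a
  set c : Fin n → ℝ := fun a => ∑ i, lam i a * U i a with hcd
  have hlam : ∀ l a, lam l a = c a * U l a := by
    intro l a
    have e1 : lam l a = ∑ i, U i a * ∑ j, A l i j * U j a := by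
      simp only [hl]
      calc lam l a = lam l a * ∑ i, U i a * U i a := by rw [hn, mul_one]
        _ = _ := by
          rw [Finset.mul_sum]
          exact Finset.sum_congr rfl fun i _ => by ring
    rw [e1, hcd]
    simp only
    rw [Finset.sum_mul]
    refine Finset.sum_congr rfl fun i _ => ?_
    have e2 : ∑ j, A l i j * U j a = lam i a * U l a := by
      rw [← hl]
      exact Finset.sum_congr rfl fun j _ => by rw [hf l i j]
    rw [e2]
    ring
  have hc2 : ∀ a, c a * c a = 1 := by
    intro a
    have e1 : (∑ l, A l * A l) * U = U * diagonal fun a => ∑ l, lam l a * lam l a := by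
      rw [Finset.sum_mul]
      have : ∀ l, A l * A l * U = U * diagonal fun a => lam l a * lam l a := fun l => by
        rw [Matrix.mul_assoc, hAU, ← Matrix.mul_assoc, hAU, Matrix.mul_assoc, diagonal_mul_diagonal]
      simp only [this]
      ext i a
      simp only [Matrix.sum_apply, mul_diagonal, Finset.mul_sum]
    rw [h1, Matrix.one_mul] at e1
    have e2 : (1 : Matrix (Fin n) (Fin n) ℝ) = diagonal fun a => ∑ l, lam l a * lam l a := by
      have := congrArg (fun X => Uᵀ * X) e1
      simp only [← Matrix.mul_assoc, hU, Matrix.one_mul] at this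
      exact this
    have e3 := congrFun (congrFun e2 a) a
    rw [one_apply_eq, diagonal_apply_eq] at e3
    simp only [hlam] at e3
    calc c a * c a = c a * c a * ∑ i, U i a * U i a := by rw [hn, mul_one]
      _ = 1 := by
        rw [e3, Finset.mul_sum]
        exact Finset.sum_congr rfl fun i _ => by ring
  have hcc : diagonal c * diagonal c = (1 : Matrix (Fin n) (Fin n) ℝ) := by
    rw [diagonal_mul_diagonal]
    simp only [hc2, diagonal_one]
  refine ⟨U * diagonal c, ?_, fun l => ?_⟩
  · rw [transpose_mul, diagonal_transpose]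
    calc diagonal c * Uᵀ * (U * diagonal c) = diagonal c * (Uᵀ * U) * diagonal c := by
          simp only [Matrix.mul_assoc]
      _ = 1 := by rw [hU, Matrix.mul_one, hcc]
  · have e1 : (fun i => (U * diagonal c) l i) = lam l := by
      funext i
      rw [mul_diagonal, hlam, mul_comm]
    rw [e1, transpose_mul, diagonal_transpose]
    calc A l = A l * U * Uᵀ := by rw [Matrix.mul_assoc, hU', Matrix.mul_one]
      _ = U * (diagonal (lam l) * (diagonal c * diagonal c)) * Uᵀ := by
          rw [hcc, Matrix.mul_one, hAU]
      _ = U * (diagonal c * diagonal (lam l) * diagonal c) * Uᵀ := by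
          congr 2
          simp only [diagonal_mul_diagonal]
          congr 1
          funext i
          ring
      _ = _ := by simp only [Matrix.mul_assoc]

end Vale.Agent.P254Z.Eq
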