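import Vale.Agent.P254Z.Eq.Near
import Vale.Agent.P254Z.Eq.Joint

/-! P254, equality case: the limit of Brenier maps with vanishing margin. -/

set_option linter.all false

open MeasureTheory Filter Set Matrix
open scoped Topology NNReal

namespace Vale.Agent.P254Z.Eq

open Vale.Agent.P227.M Vale.Agent.P254 Vale.Agent.P254.S Vale.Agent.P254.S130 Vale.Agent.P254.SP620
open Vale.Agent.P254Z.Br

variable {n : ℕ} {u v : ℕ → E n → ℝ}

/-- convergence to zero in `L²` of the Gaussian -/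
def Z0 (u : ℕ → E n → ℝ) : Prop :=
  (∀ k, PG (u k)) ∧ Tendsto (fun k => ∫ z, u k z ^ 2 ∂(gQ n)) atTop (𝓝 0)

theorem Z0.of_int (hu : ∀ k, PG (u k)) {y : ℕ → ℝ} (hy : Tendsto y atTop (𝓝 0))
    (h : ∀ k, ∫ z, u k z ^ 2 ∂(gQ n) ≤ y k) : Z0 u :=
  ⟨hu, squeeze_zero (fun k => integral_nonneg fun z => sq_nonneg _) h hy⟩

theorem Z0.of_le (hu : ∀ k, PG (u k)) {w : ℕ → E n → ℝ} (hw : ∀ k, PG (w k))
    (ht : Tendsto (fun k => ∫ z, w k z ∂(gQ n)) atTop (𝓝 0)) (h : ∀ k z, u k z ^ 2 ≤ w k z) : Z0 u :=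
  Z0.of_int hu ht fun k => gQ_mono ((hu k).pow 2) (hw k) (ae_of_all _ (h k))

theorem Z0.congr (hu : Z0 u) (h : ∀ k z, u k z = v k z) : Z0 v := by
  have e : u = v := funext fun k => funext (h k)
  exact e ▸ hu

theorem Z0.add (hu : Z0 u) (hv : Z0 v) : Z0 fun k z => u k z + v k z := by
  refine Z0.of_le (fun k => (hu.1 k).add (hv.1 k)) (w := fun k z => 2 * u k z ^ 2 + 2 * v k z ^ 2)
    (fun k => (((hu.1 k).pow 2).const_mul 2).add (((hv.1 k).pow 2).const_mul 2)) ?_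
    fun k z => by nlinarith [sq_nonneg (u k z - v k z)]
  have := (hu.2.const_mul 2).add (hv.2.const_mul 2)
  rw [mul_zero, add_zero] at this
  refine this.congr fun k => ?_
  rw [integral_add (((hu.1 k).pow 2).const_mul 2).int (((hv.1 k).pow 2).const_mul 2).int,
    integral_const_mul, integral_const_mul]

theorem Z0.sum {ι : Type*} (s : Finset ι) {u : ι → ℕ → E n → ℝ} (hu : ∀ i, Z0 (u i)) :
    Z0 fun k z => ∑ i ∈ s, u i k z := by
  classical
  induction s using Finset.induction_on with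
  | empty => exact ⟨fun k => by simpa using PG.const (n := n) 0, by simp⟩
  | insert a s ha ih => exact ((hu a).add ih).congr fun k z => by rw [Finset.sum_insert ha]

theorem Z0.smul {c : ℕ → ℝ} {c0 : ℝ} (hu : Z0 u) (hc : Tendsto c atTop (𝓝 c0)) :
    Z0 fun k z => c k * u k z := by
  refine ⟨fun k => (hu.1 k).const_mul _, ?_⟩
  have := (hc.pow 2).mul hu.2
  rw [mul_zero] at this
  refine this.congr fun k => ?_
  rw [← integral_const_mul]
  simp only [mul_pow]

theorem Z0.of_coef {c : ℕ → ℝ} {g : E n → ℝ} (hc : Tendsto c atTop (𝓝 0)) (hg : PG g) :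
    Z0 fun k z => c k * g z := by
  refine ⟨fun k => hg.const_mul _, ?_⟩
  have := (hc.pow 2).mul_const (∫ z, g z ^ 2 ∂(gQ n))
  rw [zero_pow two_ne_zero, zero_mul] at this
  refine this.congr fun k => ?_
  rw [← integral_const_mul]
  simp only [mul_pow]

theorem Z0.int_mul {g : E n → ℝ} (hu : Z0 u) (hg : PG g) :
    Tendsto (fun k => ∫ z, u k z * g z ∂(gQ n)) atTop (𝓝 0) := by
  have h1 := hu.2.mul_const (∫ z, g z ^ 2 ∂(gQ n))
  rw [zero_mul] at h1
  have h2 := squeeze_zero (fun k => sq_nonneg _) (fun k => cs_gQ (hu.1 k) hg) h1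
  have h3 := h2.sqrt
  simp only [Real.sqrt_sq_eq_abs, Real.sqrt_zero] at h3
  exact tendsto_zero_iff_abs_tendsto_zero _ |>.2 h3

theorem Z0.lim {f g : E n → ℝ} (hu : Z0 fun k z => u k z - f z) (hf : PG f) (hg : PG g) :
    Tendsto (fun k => ∫ z, u k z * g z ∂(gQ n)) atTop (𝓝 (∫ z, f z * g z ∂(gQ n))) := by
  have h := (hu.int_mul hg).add_const (∫ z, f z * g z ∂(gQ n))
  rw [zero_add] at h
  refine h.congr fun k => ?_
  rw [← integral_add ((hu.1 k).mul hg).int (hf.mul hg).int]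
  congr 1
  funext z
  ring

theorem Z0.sum_sq {ι : Type*} [Fintype ι] {u : ι → ℕ → E n → ℝ} (hu : ∀ i, Z0 (u i)) :
    Tendsto (fun k => ∫ z, ∑ i, u i k z ^ 2 ∂(gQ n)) atTop (𝓝 0) := by
  have h := tendsto_finsetSum Finset.univ fun i _ => (hu i).2
  rw [Finset.sum_const_zero] at h
  exact h.congr fun k => (integral_finsetSum _ fun i _ => (((hu i).1 k).pow 2).int).symm

theorem pg_comp {f : (Fin n → ℝ) → ℝ} (hf : LipschitzWith 1 f) (hb : ∀ x, |f x| ≤ 1)
    {y : E n → Fin n → ℝ} (hy : ∀ i, PG fun z => y z i) : PG fun z => f (y z) :=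
  PG.of_bound (hf.continuous.measurable.comp_aemeasurable
    (aemeasurable_pi_lambda _ fun i => (hy i).1.aemeasurable)).aestronglyMeasurable
    (ae_of_all _ fun z => hb _)

theorem Z0.lip {f : (Fin n → ℝ) → ℝ} (hf : LipschitzWith 1 f) (hb : ∀ x, |f x| ≤ 1)
    {y : ℕ → E n → Fin n → ℝ} {y0 : E n → Fin n → ℝ} (hy : ∀ k i, PG fun z => y k z i)
    (hy0 : ∀ i, PG fun z => y0 z i) (h : ∀ i, Z0 fun k z => y k z i - y0 z i) :
    Tendsto (fun k => ∫ z, f (y k z) ∂(gQ n)) atTop (𝓝 (∫ z, f (y0 z) ∂(gQ n))) := by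
  have h1 : Z0 fun k z => f (y k z) - f (y0 z) := by
    refine Z0.of_le (fun k => (pg_comp hf hb (hy k)).sub (pg_comp hf hb hy0))
      (fun k => PG.sum _ fun i _ => ((h i).1 k).pow 2) (Z0.sum_sq h) fun k z => ?_
    have h0 : 0 ≤ ∑ i, (y k z i - y0 z i) ^ 2 := Finset.sum_nonneg fun i _ => sq_nonneg _
    have h2 : dist (y k z) (y0 z) ≤ Real.sqrt (∑ i, (y k z i - y0 z i) ^ 2) := by
      rw [dist_pi_le_iff (Real.sqrt_nonneg _)]
      intro i
      rw [Real.dist_eq]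
      exact Real.abs_le_sqrt (Finset.single_le_sum (f := fun i => (y k z i - y0 z i) ^ 2)
        (fun _ _ => sq_nonneg _) (Finset.mem_univ i))
    have h3 := hf.dist_le_mul (y k z) (y0 z)
    rw [NNReal.coe_one, one_mul, Real.dist_eq] at h3
    rw [← sq_abs, ← Real.sq_sqrt h0]
    exact pow_le_pow_left₀ (abs_nonneg _) (h3.trans h2) 2
  simpa using h1.lim (pg_comp hf hb hy0) (PG.const 1)

/-- the coordinates of `O (E0 ⟨o_i, z⟩)_i` -/
noncomputable def tt (O : Matrix (Fin n) (Fin n) ℝ) (a : Fin n) (z : E n) : ℝ :=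
  ∑ i, O a i * SF.E0 (∑ l, O l i * z l)

theorem b_lip (x y : ℝ) : |SF.b x - SF.b y| ≤ 1 * |x - y| := by
  have h := Convex.norm_image_sub_le_of_norm_hasDerivWithin_le (f := SF.b) (f' := SF.b1) (C := 1)
    (s := univ) (fun x _ => (SF.b_hasDerivAt x).hasDerivWithinAt)
    (fun x _ => by
      rw [Real.norm_eq_abs, abs_of_pos (SF.b1_pos x)]
      linarith [SF.b1_lt x]) convex_univ (mem_univ y) (mem_univ x)
  simpa using h

theorem pl_comp_lin {f : ℝ → ℝ} (hf : ∀ x y, |f x - f y| ≤ 1 * |x - y|) (u : Fin n → ℝ) :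
    PL fun z : E n => f (∑ l, u l * z l) := by
  refine PL.of_lip (K := Real.toNNReal (∑ l, |u l|)) (LipschitzWith.of_dist_le' fun x y => ?_)
  rw [Real.dist_eq, dist_eq_norm]
  refine (hf _ _).trans ?_
  rw [one_mul, ← Finset.sum_sub_distrib, Finset.sum_mul]
  refine (Finset.abs_sum_le_sum_abs _ _).trans (Finset.sum_le_sum fun l _ => ?_)
  rw [← mul_sub, abs_mul]
  exact mul_le_mul_of_nonneg_left (PiLp.norm_apply_le (x - y) l) (abs_nonneg _)

theorem pl_E0 (u : Fin n → ℝ) : PL fun z : E n => SF.E0 (∑ l, u l * z l) := by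
  simp only [← SF.h_mul_b]
  exact (pl_comp_lin h_lip u).mul (pl_comp_lin b_lip u)

theorem pl_tt (O : Matrix (Fin n) (Fin n) ℝ) (a : Fin n) : PL (tt O a) :=
  PL.sum _ fun i _ => (pl_E0 fun l => O l i).const_mul _

theorem diff_lin (u : Fin n → ℝ) (z : E n) : DifferentiableAt ℝ (fun z : E n => ∑ l, u l * z l) z := by
  fun_prop

theorem diff_E0 (u : Fin n → ℝ) (z : E n) :
    DifferentiableAt ℝ (fun z : E n => SF.E0 (∑ l, u l * z l)) z :=
  (SF.E0_hasDerivAt _).differentiableAt.comp z (diff_lin u z)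

theorem pd_E0 (u : Fin n → ℝ) (j : Fin n) (z : E n) :
    pd j (fun z : E n => SF.E0 (∑ l, u l * z l)) z = SF.h (∑ l, u l * z l) * u j := by
  have h := ((SF.E0_hasDerivAt _).comp_hasFDerivAt z (diff_lin u z).hasFDerivAt).fderiv
  have e := pd_inner (WithLp.toLp 2 u) z j
  unfold pd at e ⊢
  rw [show (fun z : E n => SF.E0 (∑ l, u l * z l)) = SF.E0 ∘ fun z : E n => ∑ l, u l * z l from rfl, h,
    ContinuousLinearMap.smul_apply, smul_eq_mul]
  exact congrArg _ e

theorem pd_tt {A : Fin n → Matrix (Fin n) (Fin n) ℝ} {O : Matrix (Fin n) (Fin n) ℝ} (hO : Oᵀ * O = 1)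
    (hA : ∀ l, A l = O * diagonal (fun i => O l i) * Oᵀ) (j a : Fin n) (z : E n) :
    pd j (tt O a) z = mf SF.h (Lz A z) j a := by
  have hd : Dec (Lz A z) O fun i => ∑ l, O l i * z l := by
    refine ⟨hO, ?_⟩
    ext p q
    rw [Lz_apply, Matrix.mul_apply]
    simp only [hA, Matrix.mul_apply (N := Oᵀ), mul_diagonal, transpose_apply, Finset.mul_sum,
      Finset.sum_mul]
    rw [Finset.sum_comm]
    exact Finset.sum_congr rfl fun _ _ => Finset.sum_congr rfl fun _ _ => by ring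
  rw [hd.mf_eq, Matrix.mul_apply]
  unfold tt
  rw [rpd_sum fun i _ => (diff_E0 (fun l => O l i) z).const_mul _]
  refine Finset.sum_congr rfl fun i _ => ?_
  rw [rpd_mul (differentiableAt_const _) (diff_E0 (fun l => O l i) z), rpd_const, pd_E0, mul_diagonal,
    transpose_apply]
  ring

section lim

variable {φ V : ℕ → E n → ℝ} {a b M κ : ℕ → ℝ} {A : Fin n → Matrix (Fin n) (Fin n) ℝ}

theorem lim_symm (h : ∀ k, BP (φ k) (V k) (a k) (b k) (M k) (κ k))
    (hA : ∀ l i j, Tendsto (fun k => Am (φ k) l i j) atTop (𝓝 (A l i j))) (l i j : Fin n) :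
    A l i j = A l j i :=
  tendsto_nhds_unique (hA l i j) ((hA l j i).congr fun k => Am_symm (h k) l j i)

theorem lim_hess (hP : StmtPoiPL) (h : ∀ k, BP (φ k) (V k) (a k) (b k) (M k) (κ k))
    (hg : ∀ k, Gauge (φ k)) (hA : ∀ l i j, Tendsto (fun k => Am (φ k) l i j) atTop (𝓝 (A l i j)))
    (hc : Tendsto (fun k => chi2 (φ k)) atTop (𝓝 0)) (i j : Fin n) :
    Z0 fun k z => hess (φ k) z i j - mf SF.h (Lz A z) i j := by
  have hs := lim_symm h hA
  have p1 : ∀ k i j, PG fun z => (hess (φ k) z - mf SF.h (Lz (Am (φ k)) z)) i j := fun k i j =>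
    (pl_hess (h k) i j).g.sub (pl_Mh (Am_symm (h k)) i j).g
  have h1 : Z0 fun k z => (hess (φ k) z - mf SF.h (Lz (Am (φ k)) z)) i j :=
    Z0.of_int (fun k => p1 k i j) hc fun k =>
      (gQ_mono ((p1 k i j).pow 2) (pg_fr (p1 k)) (ae_of_all _ fun z => sq_le_fr _ i j)).trans
        (M_near hP (h k) (hg k))
  have pn : PG fun z : E n => ‖z‖ ^ 2 := by
    simp only [norm_sq_eq_sum]
    exact PG.sum _ fun i _ => (PG.coord i).pow 2
  have h2 : Z0 fun k z => (mf SF.h (Lz (Am (φ k)) z) - mf SF.h (Lz A z)) i j := by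
    refine Z0.of_le (fun k => (pl_Mh (Am_symm (h k)) i j).g.sub (pl_Mh hs i j).g)
      (w := fun k z => (∑ l, fr (Am (φ k) l - A l)) * ‖z‖ ^ 2) (fun k => pn.const_mul _) ?_ fun k z => ?_
    · simp only [integral_const_mul]
      have h3 : Tendsto (fun k => ∑ l, fr (Am (φ k) l - A l)) atTop (𝓝 0) := by
        have := tendsto_finsetSum Finset.univ fun l _ => tendsto_finsetSum Finset.univ fun p _ =>
          tendsto_finsetSum Finset.univ fun q _ => ((hA l p q).sub_const (A l p q)).pow 2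
        simpa [fr] using this
      simpa using h3.mul_const (∫ z, ‖z‖ ^ 2 ∂(gQ n))
    · obtain ⟨U, m, hd⟩ := Lz_dec (Am_symm (h k)) z
      obtain ⟨U', m', hd'⟩ := Lz_dec hs z
      have h4 := mf_lip hd hd' (F := SF.h) (L := 1) fun i j => h_lip _ _
      have e : Lz (Am (φ k)) z - Lz A z = Lz (fun l => Am (φ k) l - A l) z := by
        simp only [Lz, smul_sub, Finset.sum_sub_distrib]
      rw [one_pow, one_mul, e] at h4
      exact (sq_le_fr _ i j).trans (h4.trans (fr_Lz z))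
  exact (h1.add h2).congr fun k z => by simp only [Matrix.sub_apply]; ring

theorem lim_T (hP : StmtPoiPL) (h : ∀ k, BP (φ k) (V k) (a k) (b k) (M k) (κ k))
    (hg : ∀ k, Gauge (φ k)) (hA : ∀ l i j, Tendsto (fun k => Am (φ k) l i j) atTop (𝓝 (A l i j)))
    (hc : Tendsto (fun k => chi2 (φ k)) atTop (𝓝 0))
    (hG : Tendsto (fun k => fr (Gam (φ k) - 1)) atTop (𝓝 0)) :
    ∃ O : Matrix (Fin n) (Fin n) ℝ, Oᵀ * O = 1 ∧ ∀ p, Z0 fun k z =>
      pd p (φ k) z - tt O p z - ∫ y, pd p (φ k) y - tt O p y ∂(gQ n) := by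
  have hs := lim_symm h hA
  have hH := lim_hess hP h hg hA hc
  obtain ⟨hf, hcm⟩ := stmtRigid n A hs fun g hg' i j p => by
    have w : ∀ j, PG fun z : E n => pd j g z - z j * g z := fun j => (hg'.d j).sub ((PG.coord j).mul hg'.g)
    exact tendsto_nhds_unique ((hH i p).lim (pl_Mh hs i p).g (w j))
      (((hH j p).lim (pl_Mh hs j p).g (w i)).congr fun k => swap (bp_lip_T (h k) p) hg' j i)
  have h1 : ∑ l, A l * A l = 1 := by
    ext i j
    have t1 : Tendsto (fun k => Gam (φ k) i j) atTop (𝓝 ((∑ l, A l * A l) i j)) := by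
      simp only [Gam, Matrix.sum_apply, Matrix.mul_apply]
      exact tendsto_finsetSum _ fun l _ => tendsto_finsetSum _ fun q _ => (hA l i q).mul (hA l q j)
    have t2 := (squeeze_zero (fun k => sq_nonneg _) (fun k => sq_le_fr (Gam (φ k) - 1) i j) hG).sqrt
    simp only [Real.sqrt_sq_eq_abs, Real.sqrt_zero] at t2
    have t3 := ((tendsto_zero_iff_abs_tendsto_zero _).2 t2).add_const ((1 : Matrix (Fin n) (Fin n) ℝ) i j)
    simp only [Matrix.sub_apply, sub_add_cancel, zero_add] at t3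
    exact tendsto_nhds_unique t1 t3
  obtain ⟨O, hO, hAO⟩ := odeco A hs hf hcm h1
  refine ⟨O, hO, fun p => ?_⟩
  have pl : ∀ k, PL fun z => pd p (φ k) z - tt O p z := fun k => (bp_pl_T (h k) p).sub (pl_tt O p)
  refine Z0.of_int (fun k => (pl k).g.sub (PG.const _)) (Z0.sum_sq fun j => hH j p) fun k => ?_
  have h2 := hP n _ (pl k)
  set m := ∫ y, pd p (φ k) y - tt O p y ∂(gQ n) with hm
  have e : (fun z => (pd p (φ k) z - tt O p z - m) ^ 2)
      = fun z => ((pd p (φ k) z - tt O p z) ^ 2 - 2 * m * (pd p (φ k) z - tt O p z)) + m ^ 2 := by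
    funext z
    ring
  rw [e, integral_add (((pl k).g.pow 2).sub ((pl k).g.const_mul _)).int (PG.const _).int,
    integral_sub ((pl k).g.pow 2).int ((pl k).g.const_mul _).int, integral_const_mul]
  simp only [integral_const, probReal_univ, smul_eq_mul, one_mul]
  have e2 : ∫ z, ∑ j, pd j (fun z => pd p (φ k) z - tt O p z) z ^ 2 ∂(gQ n)
      = ∫ z, ∑ j, (hess (φ k) z j p - mf SF.h (Lz A z) j p) ^ 2 ∂(gQ n) := by
    refine gQ_congr ?_
    filter_upwards [(bp_pl_T (h k) p).diff, (pl_tt O p).diff] with z h1 h2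
    refine Finset.sum_congr rfl fun j _ => ?_
    rw [rpd_sub h1 h2, pd_tt hO hAO]
    rfl
  rw [← e2]
  linarith

end lim

theorem subseq_of_sq {ι : Type} [Fintype ι] (x y : ι → ℕ → ℝ) (hy : ∀ i, ∃ l, Tendsto (y i) atTop (𝓝 l))
    (h : ∀ i k, x i k ^ 2 ≤ y i k) :
    ∃ (x0 : ι → ℝ) (s : ℕ → ℕ), StrictMono s ∧ ∀ i, Tendsto (fun k => x i (s k)) atTop (𝓝 (x0 i)) := by
  have hb : ∀ i, ∃ R, ∀ k, |x i k| ≤ R := fun i => by
    obtain ⟨l, hl⟩ := hy i
    obtain ⟨R, hR⟩ := hl.bddAbove_range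
    exact ⟨Real.sqrt R, fun k => Real.abs_le_sqrt ((h i k).trans (hR ⟨k, rfl⟩))⟩
  choose R hR using hb
  obtain ⟨x0, -, s, hs, ht⟩ := (isCompact_Icc (a := fun i => -R i) (b := R)).tendsto_subseq
    (x := fun k i => x i k) fun k => ⟨fun i => (abs_le.1 (hR i k)).1, fun i => (abs_le.1 (hR i k)).2⟩
  exact ⟨x0, s, hs, fun i => tendsto_pi_nhds.1 ht i⟩

end Vale.Agent.P254Z.Eq
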