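import Vale.Agent.P254Z.Eq.Rigid

/-! P254, equality case: facts on one Brenier potential in gauge position. -/

set_option linter.all false

open MeasureTheory Filter Set Matrix
open scoped Topology NNReal

namespace Vale.Agent.P254Z.Eq

open Vale.Agent.P227.M Vale.Agent.P254 Vale.Agent.P254.S Vale.Agent.P254.S130 Vale.Agent.P254.SP620
open Vale.Agent.P254Z.Br

variable {n : ℕ} {φ V : E n → ℝ} {a b M κ : ℝ}

theorem F1_contOn (ha : 0 < a) : ContinuousOn SF.F1 (Icc a b) := by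
  intro m hm
  have hm0 : 0 < m := ha.trans_le hm.1
  have hk : Continuous SF.kap := continuous_iff_continuousAt.2 fun x => (SF.kap_hasDerivAt x).continuousAt
  have h1 : ContinuousAt (fun m => m * SF.kap (SF.F m)) m :=
    continuousAt_id.mul (hk.continuousAt.comp (SF.F_continuousAt hm0))
  exact (h1.inv₀ (mul_pos hm0 (SF.kap_pos _)).ne').continuousWithinAt

theorem mbl_Zf (h : BP φ V a b M κ) : MBL (Zf φ) :=
  bp_mbl_mf h (F := SF.F) (F' := SF.F1)
    (fun x hx => (SF.F_hasDerivAt' (h.a_pos.trans_le hx.1)).hasDerivWithinAt) (F1_contOn h.a_pos)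

theorem pl_Zf (h : BP φ V a b M κ) (i j : Fin n) : PL fun z => Zf φ z i j := PL.of_bl (mbl_Zf h i j)

theorem Zf_dec (h : BP φ V a b M κ) (z : E n) :
    ∃ U m, Dec (Zf φ z) U m ∧ hess φ z = mf SF.h (Zf φ z) := by
  obtain ⟨U, m, hd, hm⟩ := bp_dec h z
  refine ⟨U, _, hd.dec_mf SF.F, ?_⟩
  unfold Zf
  rw [hd.mf_comp, hd.mf_eq]
  have e : (fun i => SF.h (SF.F (m i))) = m := funext fun i => SF.h_F (h.a_pos.trans_le (hm i).1)
  rw [e]
  exact hd.eq

theorem Zf_symm (h : BP φ V a b M κ) (z : E n) (i j : Fin n) : Zf φ z i j = Zf φ z j i := by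
  obtain ⟨U, m, hd, -⟩ := Zf_dec h z
  exact (congrFun (congrFun hd.symm i) j).symm

theorem Am_symm (h : BP φ V a b M κ) (l i j : Fin n) : Am φ l i j = Am φ l j i := by
  have e : (fun z => Zf φ z i j) = fun z => Zf φ z j i := funext fun z => Zf_symm h z i j
  simp only [Am, dM, of_apply, e]

theorem pl_Lz (A : Fin n → Matrix (Fin n) (Fin n) ℝ) (i j : Fin n) : PL fun z => Lz A z i j := by
  simp only [Lz_apply]
  exact PL.sum _ fun l _ => (PL.coord l).mul (PL.const _)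

theorem pd_Lz (A : Fin n → Matrix (Fin n) (Fin n) ℝ) (k i j : Fin n) (z : E n) :
    pd k (fun z => Lz A z i j) z = A k i j := by
  have e : (fun z => Lz A z i j) = fun z : E n => ∑ l, (WithLp.toLp 2 fun l => A l i j : E n) l * z l := by
    funext z
    rw [Lz_apply]
    exact Finset.sum_congr rfl fun l _ => mul_comm _ _
  rw [e, pd_inner]

theorem diff_Lz (A : Fin n → Matrix (Fin n) (Fin n) ℝ) (i j : Fin n) (z : E n) :
    DifferentiableAt ℝ (fun z => Lz A z i j) z := by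
  simp only [Lz_apply]
  fun_prop

theorem mean_Lz (A : Fin n → Matrix (Fin n) (Fin n) ℝ) (i j : Fin n) :
    ∫ z, Lz A z i j ∂(gQ n) = 0 := by
  simp only [Lz_apply]
  rw [integral_finsetSum _ fun l _ => ((PG.coord l).mul (PG.const _)).int]
  simp only [integral_mul_const, mean_coord, zero_mul, Finset.sum_const_zero]

theorem pg_fr {W : E n → Matrix (Fin n) (Fin n) ℝ} (hW : ∀ i j, PG fun z => W z i j) :
    PG fun z => fr (W z) := PG.sum _ fun i _ => PG.sum _ fun j _ => (hW i j).pow 2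

theorem int_fr {W : E n → Matrix (Fin n) (Fin n) ℝ} (hW : ∀ i j, PG fun z => W z i j) :
    ∫ z, fr (W z) ∂(gQ n) = ∑ i, ∑ j, ∫ z, W z i j ^ 2 ∂(gQ n) := by
  unfold fr
  rw [integral_finsetSum _ fun i _ => (PG.sum _ fun j _ => (hW i j).pow 2).int]
  exact Finset.sum_congr rfl fun i _ => integral_finsetSum _ fun j _ => ((hW i j).pow 2).int

theorem Z_near (hP : StmtPoiPL) (h : BP φ V a b M κ) (hg : Gauge φ) :
    ∫ z, fr (Zf φ z - Lz (Am φ) z) ∂(gQ n) ≤ chi2 φ := by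
  have pl : ∀ i j, PL fun z => Zf φ z i j - Lz (Am φ) z i j := fun i j => (pl_Zf h i j).sub (pl_Lz _ i j)
  have pc : ∀ k i j, PG fun z => (dM (Zf φ) k z - Am φ k) i j := fun k i j =>
    ((pl_Zf h i j).d k).sub (PG.const _)
  have e1 : chi2 φ = ∑ i, ∑ j, ∫ z, ∑ k, (dM (Zf φ) k z - Am φ k) i j ^ 2 ∂(gQ n) := by
    unfold chi2
    rw [integral_finsetSum _ fun k _ => (pg_fr (pc k)).int]
    simp only [fun k => int_fr (pc k)]
    rw [Finset.sum_comm]
    refine Finset.sum_congr rfl fun i _ => ?_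
    rw [Finset.sum_comm]
    exact Finset.sum_congr rfl fun j _ => (integral_finsetSum _ fun k _ => ((pc k i j).pow 2).int).symm
  rw [e1, int_fr (W := fun z => Zf φ z - Lz (Am φ) z) fun i j => (pl i j).g]
  refine Finset.sum_le_sum fun i _ => Finset.sum_le_sum fun j _ => ?_
  have h1 := hP n _ (pl i j)
  rw [integral_sub (pl_Zf h i j).g.int (pl_Lz _ i j).g.int, hg, mean_Lz] at h1
  have e2 : ∫ z, ∑ k, pd k (fun z => Zf φ z i j - Lz (Am φ) z i j) z ^ 2 ∂(gQ n)
      = ∫ z, ∑ k, (dM (Zf φ) k z - Am φ k) i j ^ 2 ∂(gQ n) := by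
    refine gQ_congr ?_
    filter_upwards [(pl_Zf h i j).diff] with z hz
    refine Finset.sum_congr rfl fun k _ => ?_
    rw [rpd_sub hz (diff_Lz _ i j z), pd_Lz]
    rfl
  rw [e2] at h1
  simp only [Matrix.sub_apply] at h1 ⊢
  linarith

theorem M_near (hP : StmtPoiPL) (h : BP φ V a b M κ) (hg : Gauge φ) :
    ∫ z, fr (hess φ z - mf SF.h (Lz (Am φ) z)) ∂(gQ n) ≤ chi2 φ := by
  refine le_trans ?_ (Z_near hP h hg)
  refine gQ_mono (pg_fr fun i j => (pl_hess h i j).g.sub (pl_Mh (Am_symm h) i j).g)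
    (pg_fr fun i j => (pl_Zf h i j).g.sub (pl_Lz _ i j).g) (ae_of_all _ fun z => ?_)
  obtain ⟨U, m, hd, e⟩ := Zf_dec h z
  obtain ⟨U', m', hd'⟩ := Lz_dec (Am_symm h) z
  have h1 := mf_lip hd hd' (F := SF.h) (L := 1) fun i j => h_lip _ _
  rw [one_pow, one_mul] at h1
  rw [e]
  exact h1

theorem h_tangent (x : ℝ) : SF.h 0 + h1 0 * x ≤ SF.h x := by
  have e := SF.dd_mul SF.h h1 x 0
  have e0 : dd SF.h h1 0 0 = h1 0 := if_pos rfl
  rw [sub_zero] at e
  rcases lt_trichotomy x 0 with hx | hx | hx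
  · have := dd_lt hx 0
    nlinarith
  · simp [hx]
  · have := dd_lt hx 0
    nlinarith

theorem var_low (h : BP φ V a b M κ) (hg : Gauge φ) (u : Fin n → ℝ) :
    SF.h 0 ^ 2 * (u ⬝ᵥ u) ≤
      ∫ z, (∑ i, u i * pd i φ z) ^ 2 ∂(gQ n) - (∫ z, ∑ i, u i * pd i φ z ∂(gQ n)) ^ 2 := by
  set w : E n := WithLp.toLp 2 u with hw
  have hn : u ⬝ᵥ u = ‖w‖ ^ 2 := by
    rw [norm_sq_eq_sum]
    simp [dotProduct, hw, sq]
  set f : E n → ℝ := fun z => ∑ i, u i * pd i φ z with hf
  have pf : PL f := PL.sum _ fun i _ => (bp_pl_T h i).const_mul _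
  set m := ∫ z, f z ∂(gQ n) with hm
  have pl : PL fun z : E n => ∑ i, w i * z i := pl_inner w
  have hvar : ∫ z, (f z - m) ^ 2 ∂(gQ n) = ∫ z, f z ^ 2 ∂(gQ n) - m ^ 2 := by
    have e : (fun z => (f z - m) ^ 2) = fun z => (f z ^ 2 - 2 * m * f z) + m ^ 2 := by
      funext z
      ring
    rw [e, integral_add ((pf.g.pow 2).sub (pf.g.const_mul _)).int (PG.const _).int,
      integral_sub (pf.g.pow 2).int (pf.g.const_mul _).int, integral_const_mul]
    simp only [integral_const, probReal_univ, smul_eq_mul, one_mul]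
    ring
  have hl2 : ∫ z, (∑ i, w i * z i) ^ 2 ∂(gQ n) = ‖w‖ ^ 2 := by
    have e : (fun z : E n => (∑ i, w i * z i) ^ 2) = fun z => ∑ k, w k * (z k * ∑ i, w i * z i) := by
      funext z
      rw [sq, Finset.sum_mul]
      exact Finset.sum_congr rfl fun k _ => by ring
    rw [e, integral_finsetSum _ fun k _ => (((PG.coord k).mul pl.g).const_mul _).int, norm_sq_eq_sum]
    refine Finset.sum_congr rfl fun k _ => ?_
    rw [integral_const_mul, ← ibp pl k]
    simp only [pd_inner, integral_const, probReal_univ, smul_eq_mul, one_mul]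
    ring
  have hpd : ∀ k z, pd k (fun z => f z - m) z = ∑ i, u i * hess φ z k i := by
    intro k z
    have d1 : ∀ i, DifferentiableAt ℝ (pd i φ) z := fun i => rad_pd_diff h.C2 i z
    rw [rpd_sub (DifferentiableAt.fun_sum fun i _ => (d1 i).const_mul _) (differentiableAt_const _),
      rpd_const, sub_zero, rpd_sum fun i _ => (d1 i).const_mul _]
    refine Finset.sum_congr rfl fun i _ => ?_
    rw [rpd_mul (differentiableAt_const _) (d1 i), rpd_const]
    simp [hess]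
  have hcross : ∫ z, (∑ i, w i * z i) * (f z - m) ∂(gQ n) = ∫ z, qf (hess φ z) w ∂(gQ n) := by
    have pm : PL fun z => f z - m := pf.sub (PL.const _)
    have e : (fun z : E n => (∑ i, w i * z i) * (f z - m)) = fun z => ∑ k, w k * (z k * (f z - m)) := by
      funext z
      rw [Finset.sum_mul]
      exact Finset.sum_congr rfl fun k _ => by ring
    rw [e, integral_finsetSum _ fun k _ => (((PG.coord k).mul pm.g).const_mul _).int]
    have e2 : ∀ k, ∫ z, w k * (z k * (f z - m)) ∂(gQ n) = ∫ z, w k * pd k (fun z => f z - m) z ∂(gQ n) :=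
      fun k => by rw [integral_const_mul, integral_const_mul, ibp pm k]
    simp only [e2]
    rw [← integral_finsetSum _ fun k _ => ((pm.d k).const_mul _).int]
    congr 1
    funext z
    unfold qf
    refine Finset.sum_congr rfl fun k _ => ?_
    rw [hpd, Finset.mul_sum]
    exact Finset.sum_congr rfl fun i _ => by simp only [hw]; ring
  have hlow : SF.h 0 * ‖w‖ ^ 2 ≤ ∫ z, qf (hess φ z) w ∂(gQ n) := by
    have pz := pg_qf (fun i j => (pl_Zf h i j).g) w
    have e0 : ∫ z, qf (Zf φ z) w ∂(gQ n) = 0 := by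
      rw [int_qf fun i j => (pl_Zf h i j).g]
      simp only [hg _ _, zero_mul, Finset.sum_const_zero]
    have e1 : SF.h 0 * ‖w‖ ^ 2 = ∫ z, SF.h 0 * ‖w‖ ^ 2 + h1 0 * qf (Zf φ z) w ∂(gQ n) := by
      rw [integral_add (PG.const _).int (pz.const_mul _).int, integral_const_mul _ fun z => qf (Zf φ z) w, e0]
      simp
    rw [e1]
    refine gQ_mono ((PG.const _).add (pz.const_mul _)) (pg_qf (fun i j => (pl_hess h i j).g) w)
      (ae_of_all _ fun z => ?_)
    obtain ⟨U, m, hd, e⟩ := Zf_dec h z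
    rw [e, qf_mf hd, qf_dec hd, ← dec_norm hd w, Finset.mul_sum, Finset.mul_sum, ← Finset.sum_add_distrib]
    refine Finset.sum_le_sum fun k _ => ?_
    have := mul_le_mul_of_nonneg_right (h_tangent (m k)) (sq_nonneg (∑ i, U i k * w i))
    linarith
  have hcs := cs_gQ pl.g (pf.g.sub (PG.const m))
  rw [hcross, hl2, hvar] at hcs
  rw [hn]
  rcases (sq_nonneg ‖w‖).eq_or_lt with h0 | h0
  · rw [← h0, mul_zero, ← hvar]
    exact integral_nonneg fun z => sq_nonneg _
  · have h2 : (SF.h 0 * ‖w‖ ^ 2) ^ 2 ≤ (∫ z, qf (hess φ z) w ∂(gQ n)) ^ 2 :=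
      pow_le_pow_left₀ (mul_nonneg (SF.h_pos 0).le h0.le) hlow 2
    have h3 : ‖w‖ ^ 2 * (SF.h 0 ^ 2 * ‖w‖ ^ 2) ≤ ‖w‖ ^ 2 * (∫ z, f z ^ 2 ∂(gQ n) - m ^ 2) := by
      nlinarith
    exact le_of_mul_le_mul_left h3 h0

theorem stmtNear (hP : StmtPoiPL) : StmtNear := fun _ _ _ _ _ _ _ h hg =>
  ⟨Am_symm h, M_near hP h hg, var_low h hg⟩

end Vale.Agent.P254Z.Eq
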