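import Vale.Agent.P254Z.Eq.Iface
import Vale.Agent.P254Z.Br.GaB
import Vale.Agent.P254Z.SF.Pair

/-! P254, equality case: a curl free field `h (∑ z_l A_l)` has a fully symmetric commuting tensor. -/

set_option linter.all false

open MeasureTheory Filter Set Matrix
open scoped Topology NNReal

namespace Vale.Agent.P254Z.Eq

open Vale.Agent.P227.M Vale.Agent.P254 Vale.Agent.P254.S Vale.Agent.P254.S130 Vale.Agent.P254.SP620
open Vale.Agent.P254Z.Br

variable {n : ℕ} {A : Fin n → Matrix (Fin n) (Fin n) ℝ}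

/-- `h'` -/
noncomputable def h1 (x : ℝ) : ℝ := SF.h x * SF.kap x

theorem h_deriv (x : ℝ) : HasDerivAt SF.h (h1 x) x := SF.h_hasDerivAt x

theorem h1_cont : Continuous h1 := by
  have hk : Continuous SF.kap := continuous_iff_continuousAt.2 fun x => (SF.kap_hasDerivAt x).continuousAt
  exact SF.h_continuous.mul hk

theorem dd_h (x y : ℝ) : ∃ t, min x y ≤ t ∧ t ≤ max x y ∧ dd SF.h h1 x y = h1 t := by
  rcases le_total x y with h | h
  · obtain ⟨t, ht, e⟩ := SF.dd_mvt h fun t _ => h_deriv t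
    exact ⟨t, by rw [min_eq_left h]; exact ht.1, by rw [max_eq_right h]; exact ht.2, e⟩
  · obtain ⟨t, ht, e⟩ := SF.dd_mvt h fun t _ => h_deriv t
    exact ⟨t, by rw [min_eq_right h]; exact ht.1, by rw [max_eq_left h]; exact ht.2, by rw [dd_comm, e]⟩

theorem h_lip (x y : ℝ) : |SF.h x - SF.h y| ≤ 1 * |x - y| := by
  obtain ⟨t, -, -, e⟩ := dd_h x y
  rw [← SF.dd_mul SF.h h1 x y, e, abs_mul, abs_of_pos (show 0 < h1 t from SF.h1_pos t)]
  exact mul_le_mul_of_nonneg_right (SF.h1_lt_one t).le (abs_nonneg _)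

theorem h_sconv : StrictConvexOn ℝ univ SF.h := by
  have hd : deriv SF.h = fun z => SF.h z * SF.kap z := funext fun x => (h_deriv x).deriv
  exact StrictMono.strictConvexOn_univ_of_deriv SF.h_continuous (hd ▸ SF.h1_strictMono)

theorem dd_lt {x w : ℝ} (hxw : x < w) (y : ℝ) : dd SF.h h1 x y < dd SF.h h1 w y := by
  by_cases hx : x = y
  · subst hx
    have := h_sconv.lt_slope_of_hasDerivAt (mem_univ x) (mem_univ w) hxw (h_deriv x)
    rw [slope_def_field] at this
    rwa [dd, if_pos rfl, dd, if_neg hxw.ne']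
  by_cases hw : w = y
  · subst hw
    have := h_sconv.slope_lt_of_hasDerivAt (mem_univ x) (mem_univ w) hxw (h_deriv w)
    rw [slope_def_field] at this
    rw [dd_comm, dd, if_neg hxw.ne', dd, if_pos rfl]
    exact this
  · rw [dd, if_neg hx, dd, if_neg hw]
    exact h_sconv.secant_strict_mono (mem_univ y) (mem_univ x) (mem_univ w) hx hw hxw

theorem dd_inj {x w y : ℝ} (h : dd SF.h h1 x y = dd SF.h h1 w y) : x = w := by
  rcases lt_trichotomy x w with h1 | h1 | h1
  · exact absurd h (dd_lt h1 y).ne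
  · exact h1
  · exact absurd h (dd_lt h1 y).ne'

theorem Lz_apply (z : E n) (i j : Fin n) : Lz A z i j = ∑ l, z l * A l i j := by
  simp [Lz, Matrix.sum_apply]

theorem Lz_dec (hs : ∀ l i j, A l i j = A l j i) (z : E n) : ∃ U m, Dec (Lz A z) U m := by
  refine exists_dec ?_
  ext i j
  rw [transpose_apply, Lz_apply, Lz_apply]
  exact Finset.sum_congr rfl fun l _ => by rw [hs l j i]

theorem Lz_sub (x y : E n) : Lz A x - Lz A y = Lz A (x - y) := by
  ext i j
  rw [Matrix.sub_apply, Lz_apply, Lz_apply, Lz_apply, ← Finset.sum_sub_distrib]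
  exact Finset.sum_congr rfl fun l _ => by simp [sub_mul]

theorem fr_Lz (z : E n) : fr (Lz A z) ≤ (∑ l, fr (A l)) * ‖z‖ ^ 2 := by
  have e : (∑ l, fr (A l)) = ∑ i, ∑ j, ∑ l, A l i j ^ 2 := by
    unfold fr
    rw [Finset.sum_comm]
    exact Finset.sum_congr rfl fun i _ => Finset.sum_comm
  rw [e, fr, Finset.sum_mul]
  refine Finset.sum_le_sum fun i _ => ?_
  rw [Finset.sum_mul]
  refine Finset.sum_le_sum fun j _ => ?_
  rw [Lz_apply, norm_sq_eq_sum, mul_comm]
  exact Finset.sum_mul_sq_le_sq_mul_sq Finset.univ (fun l => z l) (fun l => A l i j)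

/-- the size of the tensor -/
noncomputable def sz (A : Fin n → Matrix (Fin n) (Fin n) ℝ) : ℝ := Real.sqrt (∑ l, fr (A l))

theorem sz_nonneg : 0 ≤ sz A := Real.sqrt_nonneg _

theorem fr_Lz' (z : E n) : fr (Lz A z) ≤ (sz A * ‖z‖) ^ 2 := by
  rw [mul_pow, sz, Real.sq_sqrt (Finset.sum_nonneg fun l _ => fr_nonneg _)]
  exact fr_Lz z

theorem eig_le {z : E n} {U : Matrix (Fin n) (Fin n) ℝ} {m : Fin n → ℝ} (hd : Dec (Lz A z) U m)
    (i : Fin n) : |m i| ≤ sz A * ‖z‖ := by
  refine abs_le_of_sq_le_sq ?_ (mul_nonneg sz_nonneg (norm_nonneg _))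
  refine le_trans ?_ (fr_Lz' z)
  rw [fr_dec hd]
  exact Finset.single_le_sum (f := fun k => m k ^ 2) (fun _ _ => sq_nonneg _) (Finset.mem_univ i)

theorem fr_Mh (hs : ∀ l i j, A l i j = A l j i) (x y : E n) :
    fr (mf SF.h (Lz A x) - mf SF.h (Lz A y)) ≤ (sz A * ‖x - y‖) ^ 2 := by
  obtain ⟨U, m, hd⟩ := Lz_dec hs x
  obtain ⟨U', m', hd'⟩ := Lz_dec hs y
  have h := mf_lip hd hd' (F := SF.h) (L := 1) fun i j => h_lip _ _
  rw [one_pow, one_mul, Lz_sub] at h
  exact h.trans (fr_Lz' _)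

theorem lip_Mh (hs : ∀ l i j, A l i j = A l j i) (i j : Fin n) :
    LipschitzWith (Real.toNNReal (sz A)) fun z => mf SF.h (Lz A z) i j := by
  refine LipschitzWith.of_dist_le' fun x y => ?_
  have h := entry_le (mul_nonneg sz_nonneg (norm_nonneg _)) (fr_Mh hs x y) i j
  rwa [Matrix.sub_apply, ← Real.dist_eq, ← dist_eq_norm] at h

theorem pl_Mh (hs : ∀ l i j, A l i j = A l j i) (i j : Fin n) : PL fun z => mf SF.h (Lz A z) i j :=
  PL.of_lip (lip_Mh hs i j)

theorem pd_Mh (hs : ∀ l i j, A l i j = A l j i) {z : E n} {U : Matrix (Fin n) (Fin n) ℝ}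
    {m : Fin n → ℝ} (hd : Dec (Lz A z) U m) (k i j : Fin n) :
    pd k (fun z => mf SF.h (Lz A z) i j) z = DK SF.h h1 U m (A k) i j := by
  set R := sz A * (‖z‖ + 1) with hR
  have hR0 : 0 ≤ R := mul_nonneg sz_nonneg (by positivity)
  have hb : ∀ y : E n, ‖y‖ ≤ ‖z‖ + 1 → ∀ U m, Dec (Lz A y) U m → ∀ i, m i ∈ Icc (-R) R :=
    fun y hy U m hd i => abs_le.1 ((eig_le hd i).trans (mul_le_mul_of_nonneg_left hy sz_nonneg))
  have hsp : ∀ᶠ y in 𝓝 z, ∃ U m, Dec (Lz A y) U m ∧ ∀ i, m i ∈ Icc (-R) R := by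
    filter_upwards [Metric.ball_mem_nhds z one_pos] with y hy
    obtain ⟨U, m, hd⟩ := Lz_dec hs y
    refine ⟨U, m, hd, hb y ?_ U m hd⟩
    have h1 : ‖y - z‖ < 1 := by rwa [← dist_eq_norm]
    have h2 := norm_add_le z (y - z)
    rw [add_sub_cancel] at h2
    linarith
  have hA : ∀ i j, HasFDerivAt (fun y => Lz A y i j)
      (∑ l, A l i j • (EuclideanSpace.proj l : E n →L[ℝ] ℝ)) z := fun i j => by
    have e : (fun y => Lz A y i j) = (∑ l, A l i j • (EuclideanSpace.proj l : E n →L[ℝ] ℝ) : E n →L[ℝ] ℝ) := by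
      funext y
      rw [Lz_apply]
      simp [mul_comm]
    rw [e]
    exact ContinuousLinearMap.hasFDerivAt _
  have h := hasFD_mf (by linarith : -R ≤ R) (fun x _ => (h_deriv x).hasDerivWithinAt) h1_cont.continuousOn
    hsp hd (hb z (by linarith) U m hd) hA i j
  unfold pd
  rw [h.fderiv, DKL_apply]
  congr 1
  ext p q
  simp [ei, Pi.single_apply]

theorem vol_ac : (volume : Measure (E n)) ≪ gQ n := by
  unfold gQ
  refine withDensity_absolutelyContinuous' (dens_cont.measurable.ennreal_ofReal.aemeasurable) ?_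
  exact ae_of_all _ fun z => (ENNReal.ofReal_pos.2 (dens_pos z)).ne'

theorem curl_ae (hs : ∀ l i j, A l i j = A l j i)
    (hc : ∀ g : E n → ℝ, PL g → ∀ i j a,
      ∫ z, mf SF.h (Lz A z) i a * (pd j g z - z j * g z) ∂(gQ n)
        = ∫ z, mf SF.h (Lz A z) j a * (pd i g z - z i * g z) ∂(gQ n)) :
    ∀ᵐ z : E n, ∀ U m, Dec (Lz A z) U m → ∀ i j a, DK SF.h h1 U m (A j) i a = DK SF.h h1 U m (A i) j a := by
  have key : ∀ i j a, ∀ᵐ z : E n, pd j (fun z => mf SF.h (Lz A z) i a) z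
      - pd i (fun z => mf SF.h (Lz A z) j a) z = 0 := by
    intro i j a
    refine vol_ac.ae_le ?_
    refine ae_eq_zero_of_integral_contDiff_smul_eq_zero
      (((pl_Mh hs i a).d j).sub ((pl_Mh hs j a).d i)).int.locallyIntegrable fun g hg hgc => ?_
    obtain ⟨C, hC⟩ := ContDiff.lipschitzWith_of_hasCompactSupport hgc hg (by simp)
    have hp := PL.of_lip hC
    have e1 := ibp2 (pl_Mh hs i a) hp j
    have e2 := ibp2 (pl_Mh hs j a) hp i
    have e3 := hc g hp i j a
    have n1 : ∀ i j, ∫ z, mf SF.h (Lz A z) i a * (pd j g z - z j * g z) ∂(gQ n)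
        = -∫ z, mf SF.h (Lz A z) i a * (z j * g z - pd j g z) ∂(gQ n) := fun i j => by
      rw [← integral_neg]
      congr 1
      funext z
      ring
    rw [n1, n1, ← e1, ← e2] at e3
    have e4 : (fun z => g z • (pd j (fun z => mf SF.h (Lz A z) i a) z
        - pd i (fun z => mf SF.h (Lz A z) j a) z)) = fun z => pd j (fun z => mf SF.h (Lz A z) i a) z * g z
        - pd i (fun z => mf SF.h (Lz A z) j a) z * g z := by
      funext z
      rw [smul_eq_mul]
      ring
    rw [e4, integral_sub (((pl_Mh hs i a).d j).mul hp.g).int (((pl_Mh hs j a).d i).mul hp.g).int]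
    linarith
  have key2 : ∀ᵐ z : E n, ∀ i j a, pd j (fun z => mf SF.h (Lz A z) i a) z
      - pd i (fun z => mf SF.h (Lz A z) j a) z = 0 :=
    ae_all_iff.2 fun i => ae_all_iff.2 fun j => ae_all_iff.2 fun a => key i j a
  filter_upwards [key2] with z hz U m hd i j a
  have := hz i j a
  rw [pd_Mh hs hd, pd_Mh hs hd] at this
  linarith

theorem DK_lin {U : Matrix (Fin n) (Fin n) ℝ} (hU : Uᵀ * U = 1) (m : Fin n → ℝ) (c : ℝ)
    (X : Matrix (Fin n) (Fin n) ℝ) : DK (fun x => c * x) (fun _ => c) U m X = c • X := by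
  have hU' : U * Uᵀ = 1 := mul_eq_one_comm.1 hU
  have e : (of fun i j => dd (fun x => c * x) (fun _ => c) (m i) (m j) * (Uᵀ * X * U) i j)
      = c • (Uᵀ * X * U) := by
    ext i j
    rw [of_apply, Matrix.smul_apply, smul_eq_mul]
    congr 1
    unfold dd
    split_ifs with h
    · rfl
    · have := sub_ne_zero.2 h
      field_simp
  unfold DK
  rw [e, Matrix.mul_smul, Matrix.smul_mul]
  congr 1
  calc U * (Uᵀ * X * U) * Uᵀ = (U * Uᵀ) * X * (U * Uᵀ) := by simp only [Matrix.mul_assoc]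
    _ = X := by rw [hU', Matrix.one_mul, Matrix.mul_one]

theorem dd_lin (c x y : ℝ) : dd (fun x => c * x) (fun _ => c) x y = c := by
  unfold dd
  split_ifs with h
  · rfl
  · have := sub_ne_zero.2 h
    field_simp

theorem full_symm (hs : ∀ l i j, A l i j = A l j i)
    (hae : ∀ᵐ z : E n, ∀ U m, Dec (Lz A z) U m → ∀ i j a,
      DK SF.h h1 U m (A j) i a = DK SF.h h1 U m (A i) j a) (l i j : Fin n) : A l i j = A i l j := by
  have hc : 0 < h1 0 := SF.h1_pos 0
  have key : ∀ ε > 0, |h1 0 * A l i j - h1 0 * A i l j| ≤ ε * (2 * sz A) := by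
    intro ε hε
    obtain ⟨δ, hδ, hδ'⟩ := Metric.continuous_iff.1 h1_cont 0 ε hε
    have hr : 0 < δ / (sz A + 1) := div_pos hδ (by linarith [sz_nonneg (A := A)])
    obtain ⟨z, hz1, hz2⟩ := (Measure.dense_of_ae hae).inter_open_nonempty _ Metric.isOpen_ball
      ⟨0, Metric.mem_ball_self hr⟩
    obtain ⟨U, m, hd⟩ := Lz_dec hs z
    have hz3 : sz A * ‖z‖ < δ := by
      have h1 : ‖z‖ < δ / (sz A + 1) := by simpa using hz1
      rw [lt_div_iff₀ (by linarith [sz_nonneg (A := A)])] at h1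
      nlinarith [norm_nonneg z]
    have hm : ∀ p, |m p| < δ := fun p => (eig_le hd p).trans_lt hz3
    have hB : ∀ p q, |dd SF.h h1 (m p) (m q) - dd (fun x => h1 0 * x) (fun _ => h1 0) (m p) (m q)| ≤ ε := by
      intro p q
      obtain ⟨t, t1, t2, e⟩ := dd_h (m p) (m q)
      rw [e, dd_lin, ← Real.dist_eq]
      refine (hδ' t ?_).le
      rw [Real.dist_eq, sub_zero, abs_lt]
      have a1 := abs_lt.1 (hm p)
      have a2 := abs_lt.1 (hm q)
      exact ⟨lt_of_lt_of_le (lt_min a1.1 a2.1) t1, lt_of_le_of_lt t2 (max_lt a1.2 a2.2)⟩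
    have hX : ∀ k p q, |DK SF.h h1 U m (A k) p q - h1 0 * A k p q| ≤ ε * sz A := by
      intro k p q
      have h2 := fr_DK_sub_le hd.orth hB (A k)
      rw [DK_lin hd.orth] at h2
      have h3 : fr (A k) ≤ sz A ^ 2 := by
        rw [sz, Real.sq_sqrt (Finset.sum_nonneg fun l _ => fr_nonneg _)]
        exact Finset.single_le_sum (f := fun l => fr (A l)) (fun _ _ => fr_nonneg _) (Finset.mem_univ k)
      have h4 := entry_le (B := ε * sz A) (mul_nonneg hε.le sz_nonneg)
        (h2.trans (by rw [mul_pow]; gcongr)) p q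
      simpa using h4
    have e := hz2 U m hd i l j
    have a1 := abs_le.1 (hX l i j)
    have a2 := abs_le.1 (hX i l j)
    rw [abs_le]
    constructor <;> linarith [a1.1, a1.2, a2.1, a2.2]
  have h0 : |h1 0 * A l i j - h1 0 * A i l j| ≤ 0 := by
    refine le_of_forall_pos_le_add fun η hη => ?_
    have hs1 : 0 < 2 * sz A + 1 := by linarith [sz_nonneg (A := A)]
    refine (key (η / (2 * sz A + 1)) (div_pos hη hs1)).trans ?_
    rw [zero_add, div_mul_eq_mul_div, div_le_iff₀ hs1]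
    nlinarith
  have h2 := abs_nonpos_iff.1 h0
  have h3 : h1 0 * (A l i j - A i l j) = 0 := by linarith
  have := (mul_eq_zero.1 h3).resolve_left hc.ne'
  linarith

/-- a tensor in the frame `U` -/
noncomputable def cb (U : Matrix (Fin n) (Fin n) ℝ) (B : Fin n → Matrix (Fin n) (Fin n) ℝ)
    (c p q : Fin n) : ℝ := ∑ j, U j c * (Uᵀ * B j * U) p q

theorem cb_swap {U : Matrix (Fin n) (Fin n) ℝ} {B : Fin n → Matrix (Fin n) (Fin n) ℝ}
    (h : ∀ i j a, B j i a = B i j a) (c p q : Fin n) : cb U B c p q = cb U B p c q := by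
  unfold cb
  simp only [conjT_entry, Finset.mul_sum]
  rw [Finset.sum_comm]
  refine Finset.sum_congr rfl fun i _ => Finset.sum_congr rfl fun j _ =>
    Finset.sum_congr rfl fun a _ => ?_
  rw [h]
  ring

theorem cb_inv {U : Matrix (Fin n) (Fin n) ℝ} (hU : Uᵀ * U = 1) (B : Fin n → Matrix (Fin n) (Fin n) ℝ)
    (j p q : Fin n) : (Uᵀ * B j * U) p q = ∑ c, U j c * cb U B c p q := by
  have hU' : U * Uᵀ = 1 := mul_eq_one_comm.1 hU
  unfold cb
  simp only [Finset.mul_sum]
  rw [Finset.sum_comm]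
  have e : ∀ k, ∑ c, U j c * (U k c * (Uᵀ * B k * U) p q) = (if j = k then 1 else 0) * (Uᵀ * B k * U) p q := by
    intro k
    rw [← Matrix.one_apply, ← hU', Matrix.mul_apply (M := U) (N := Uᵀ), Finset.sum_mul]
    exact Finset.sum_congr rfl fun c _ => by rw [transpose_apply]; ring
  simp only [e]
  simp

theorem comm_at (hs : ∀ l i j, A l i j = A l j i) (hf : ∀ l i j, A l i j = A i l j) {z : E n}
    {U : Matrix (Fin n) (Fin n) ℝ} {m : Fin n → ℝ} (hd : Dec (Lz A z) U m)
    (h : ∀ i j a, DK SF.h h1 U m (A j) i a = DK SF.h h1 U m (A i) j a) (k : Fin n) :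
    Lz A z * A k = A k * Lz A z := by
  have e1 : ∀ c p q, cb U (fun j => DK SF.h h1 U m (A j)) c p q = dd SF.h h1 (m p) (m q) * cb U A c p q := by
    intro c p q
    unfold cb
    rw [Finset.mul_sum]
    exact Finset.sum_congr rfl fun j _ => by rw [DK_frame hd.orth]; ring
  have s1 : ∀ c p q, cb U A c p q = cb U A p c q := cb_swap fun i j a => hf j i a
  have s2 : ∀ c p q, cb U A c p q = cb U A c q p := by
    intro c p q
    unfold cb
    refine Finset.sum_congr rfl fun j _ => ?_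
    rw [conjT_entry, conjT_entry, Finset.sum_comm]
    congr 1
    exact Finset.sum_congr rfl fun a _ => Finset.sum_congr rfl fun b _ => by rw [hs j b a]; ring
  have z1 : ∀ c p q, m p ≠ m q → cb U A c p q = 0 := by
    intro c p q hpq
    have e2 := cb_swap (U := U) (B := fun j => DK SF.h h1 U m (A j)) h p q c
    rw [e1, e1, s1 q p c] at e2
    have e3 : cb U A p q c = 0 := by
      by_contra h0
      exact hpq (dd_inj (mul_right_cancel₀ h0 e2)).symm
    rw [s1, s2, e3]
  have e4 : diagonal m * (Uᵀ * A k * U) = (Uᵀ * A k * U) * diagonal m := by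
    ext p q
    rw [diagonal_mul, mul_diagonal]
    by_cases hpq : m p = m q
    · rw [hpq, mul_comm]
    · rw [cb_inv hd.orth]
      simp [z1 _ p q hpq]
  rw [hd.eq]
  calc U * diagonal m * Uᵀ * A k = U * diagonal m * Uᵀ * A k * (U * Uᵀ) := by
        rw [hd.orth', Matrix.mul_one]
    _ = U * (diagonal m * (Uᵀ * A k * U)) * Uᵀ := by simp only [Matrix.mul_assoc]
    _ = (U * Uᵀ) * A k * (U * diagonal m * Uᵀ) := by
        rw [e4]
        simp only [Matrix.mul_assoc]
    _ = _ := by rw [hd.orth', Matrix.one_mul]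

theorem stmtRigid : StmtRigid := by
  intro n A hs hc
  have hae := curl_ae hs hc
  have hf := full_symm hs hae
  refine ⟨hf, fun l k => ?_⟩
  have h1 : ∀ᵐ z : E n, Lz A z * A k = A k * Lz A z := by
    filter_upwards [hae] with z hz
    obtain ⟨U, m, hd⟩ := Lz_dec hs z
    exact comm_at hs hf hd (hz U m hd) k
  have hcont : Continuous (Lz A) := by
    unfold Lz
    fun_prop
  have hcl : IsClosed {z : E n | Lz A z * A k = A k * Lz A z} :=
    isClosed_eq (hcont.matrix_mul continuous_const) (continuous_const.matrix_mul hcont)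
  have h2 : ei l ∈ {z : E n | Lz A z * A k = A k * Lz A z} := by
    rw [← hcl.closure_eq]
    exact Measure.dense_of_ae h1 _
  have e : Lz A (ei l) = A l := by
    ext i j
    rw [Lz_apply]
    simp [ei, Pi.single_apply]
  have h3 : Lz A (ei l) * A k = A k * Lz A (ei l) := h2
  rwa [e] at h3

end Vale.Agent.P254Z.Eq
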